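import Vale.Agent.P130.Lebesgue.Spectral.Ops

/-!
# Densities give simple Lebesgue spectrum
-/

namespace Vale.Agent.P130.Lebesgue.Hilb

open MeasureTheory Filter Set
open scoped Topology ComplexConjugate InnerProductSpace

noncomputable section

/-- The stage polynomial as a formal trigonometric polynomial. -/
def stageTP (R : RankOne) (k : ℕ) : TP :=
  ∑ j ∈ Finset.range (R.p k), AddMonoidAlgebra.single ((R.pos k j : ℕ) : ℤ) 1

/-- The product of the first stage polynomials. -/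
def prodTP (R : RankOne) (k : ℕ) : TP := ∏ i ∈ Finset.range k, stageTP R i

lemma ev_stageTP (R : RankOne) (k : ℕ) (θ : ℝ) :
    ev θ (stageTP R k) = (Real.sqrt (R.p k) : ℂ) * R.P k θ := by
  have h : (Real.sqrt (R.p k) : ℂ) ≠ 0 := by
    exact_mod_cast (Real.sqrt_pos.2 (by have := R.two_le k; positivity : (0 : ℝ) < R.p k)).ne'
  simp only [stageTP, map_sum, ev_single, one_mul, RankOne.P, Int.cast_natCast]
  field_simp
  exact Finset.sum_congr rfl fun x _ => by rw [mul_comm]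

/-- Densities in the form used below. -/
theorem hasDensities_of_riesz (h : RieszGoal) : ∃ R : RankOne,
    Summable (fun k => ((∑ j ∈ Finset.range (R.p k), R.a k j : ℕ) : ℝ) / (R.p k * R.h k : ℕ)) ∧
      HasDensities R := by
  obtain ⟨R, f, hs, hf, hae, hlim⟩ := h
  refine ⟨R, hs, f, fun k => (hf k).2.1, fun k => (hf k).2.2.1,
    fun k => (hae k).mono fun θ hθ => hθ.1, fun k => (hae k).mono fun θ hθ => hθ.2, ?_⟩
  intro k r hr
  obtain ⟨s, c, rfl⟩ := tp_eq_sum r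
  have ht : ∀ θ, trig (∑ a ∈ s, Finsupp.single a (c a)) θ =
      ev θ (∑ a ∈ s, AddMonoidAlgebra.single a (c a)) := fun θ => by
    rw [map_sum, trig, ← Finsupp.sum_finsetSum_index (by simp) (by intros; ring)]
    exact Finset.sum_congr rfl fun a _ => by
      rw [Finsupp.sum_single_index (by simp), ev_single]
  have h0 : (∑ a ∈ s, Finsupp.single a (c a)).sum (fun _ z => z) = 0 := by
    have h1 := ht 0
    rw [hr] at h1
    simpa [trig, e] using h1
  have := hlim k _ h0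
  simpa only [ht] using this

lemma continuous_riesz (R : RankOne) (k n : ℕ) : Continuous (R.riesz k n) := by
  unfold RankOne.riesz RankOne.P e
  fun_prop

section

variable {X : Type} [MeasurableSpace X] {μ : Measure X} {T : X ≃ᵐ X}

/-- The isometry behind the construction: the norm of `r (U) F` is that of `r √f`. -/
lemma norm_op_eq (hT : MeasurePreserving T μ μ) {R : RankOne} {f : ℕ → ℝ → ℝ}
    (hlim : ∀ (k : ℕ) (r : TP), ev 0 r = 0 →
      Tendsto (fun n => ∫ θ in (0 : ℝ)..1, ‖ev θ r‖ ^ 2 * R.riesz k n θ) atTop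
        (𝓝 (∫ θ in (0 : ℝ)..1, ‖ev θ r‖ ^ 2 * f k θ)))
    {F : X → ℂ} (hF : MemLp F 2 μ) {ν : ℝ} (k : ℕ) (hν : 0 ≤ ν)
    (hcor : ∀ a b : ℤ, Tendsto
      (fun n => ((ν : ℝ) : ℂ) * ∫ θ in (0 : ℝ)..1, (R.riesz k n θ : ℂ) * e ((b - a) * θ)) atTop
      (𝓝 (∫ x, conj (F (iter T a x)) * F (iter T b x) ∂μ)))
    (hf0 : ∀ θ, 0 ≤ f k θ) {r : TP} (hr : ev 0 r = 0) :
    ‖op hT r (hF.toLp F)‖ ^ 2 =
      ∫ θ, ‖ev θ r * (Real.sqrt (ν * f k θ) : ℂ)‖ ^ 2 ∂vol01 := by
  refine (tendsto_nhds_unique (tendsto_norm_op hT hF (fun n => continuous_riesz R k n) hcor r)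
    ((hlim k r hr).const_mul ν)).trans ?_
  rw [interval_eq_vol01, ← integral_const_mul]
  refine integral_congr_ae (Eventually.of_forall fun θ => ?_)
  simp only [norm_mul, mul_pow, Complex.norm_real]
  rw [Real.norm_of_nonneg (Real.sqrt_nonneg _), Real.sq_sqrt (mul_nonneg hν (hf0 θ))]
  ring

end

lemma norm_add_sq_le {E : Type*} [NormedAddCommGroup E] (x y : E) :
    ‖x + y‖ ^ 2 ≤ 2 * ‖x‖ ^ 2 + 2 * ‖y‖ ^ 2 := by
  have := pow_le_pow_left₀ (norm_nonneg _) (norm_add_le x y) 2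
  nlinarith [sq_nonneg (‖x‖ - ‖y‖)]

/-- The integral over the period of a character. -/
lemma integral_e_int (a : ℤ) : ∫ θ, e (a * θ) ∂vol01 = if a = 0 then 1 else 0 := by
  rw [← interval_eq_vol01]
  split_ifs with ha
  · subst ha; simp [e]
  · have hc : (2 * Real.pi * a * Complex.I : ℂ) ≠ 0 := by
      simp [Real.pi_ne_zero, ha, Complex.I_ne_zero]
    have : (fun θ : ℝ => e (a * θ)) = fun θ : ℝ =>
        Complex.exp ((2 * Real.pi * a * Complex.I : ℂ) * θ) := by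
      funext θ
      rw [e]
      congr 1
      push_cast
      ring
    rw [this, integral_exp_mul_complex hc]
    have h1 : Complex.exp (2 * Real.pi * a * Complex.I) = 1 := by
      rw [show (2 * Real.pi * a * Complex.I : ℂ) = a * (2 * Real.pi * Complex.I) by ring]
      exact Complex.exp_int_mul_two_pi_mul_I a
    simp [h1]

/-- The vectors of the towers together with their spectral densities. -/
structure SpecData {X : Type} [MeasurableSpace X] {μ : Measure X} {T : X ≃ᵐ X}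
    (hT : MeasurePreserving T μ μ) where
  G : ℕ → Lp ℂ 2 μ
  w : ℕ → ℝ → ℝ
  D : ℕ → TP
  w_mem : ∀ k, MemLp (fun θ => (w k θ : ℂ)) 2 vol01
  iso : ∀ k (r : TP), ev 0 r = 0 →
    ‖op hT r (G k)‖ ^ 2 = ∫ θ, ‖ev θ r * (w k θ : ℂ)‖ ^ 2 ∂vol01
  recur : ∀ k, G 0 = op hT (D k) (G k)
  w_recur : ∀ k, ∀ᵐ θ ∂vol01, w 0 θ = ‖ev θ (D k)‖ * w k θ
  w_pos : ∀ᵐ θ ∂vol01, 0 < w 0 θ

lemma memLp_ev (s : TP) : MemLp (fun θ => ev θ s) 2 vol01 := by
  obtain ⟨B, -, hB⟩ := exists_ev_bound s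
  exact MemLp.of_bound (continuous_ev s).aestronglyMeasurable B (Eventually.of_forall hB)

namespace SpecData

variable {X : Type} [MeasurableSpace X] {μ : Measure X} {T : X ≃ᵐ X}
  {hT : MeasurePreserving T μ μ} (S : SpecData hT)

lemma mem_ev_w (s : TP) (k : ℕ) : MemLp (fun θ => ev θ s * (S.w k θ : ℂ)) 2 vol01 := by
  obtain ⟨B, -, hB⟩ := exists_ev_bound s
  refine (S.w_mem k).of_le_mul (c := B) ((continuous_ev s).aestronglyMeasurable.mul (S.w_mem k).1)
    (Eventually.of_forall fun θ => ?_)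
  rw [norm_mul]
  exact mul_le_mul_of_nonneg_right (hB θ) (norm_nonneg _)

/-- The error of an approximation of `1`. -/
def err (r : TP) (θ : ℝ) : ℂ := ev θ r * (S.w 0 θ : ℂ) - 1

lemma err_integrable (r : TP) : Integrable (fun θ => ‖S.err r θ‖ ^ 2) vol01 :=
  ((S.mem_ev_w r 0).sub (memLp_const 1)).norm.integrable_sq

/-- `g` is the image of the constant one. -/
def IsCyclicLimit (r : ℕ → TP) (g : Lp ℂ 2 μ) : Prop :=
  (∀ i, ev 0 (r i) = 0) ∧ (∀ i, ∫ θ, ‖S.err (r i) θ‖ ^ 2 ∂vol01 ≤ 1 / ((i : ℝ) + 1)) ∧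
    Tendsto (fun i => op hT (r i) (S.G 0)) atTop (𝓝 g)

lemma dist_le {r r' : TP} (hr : ev 0 r = 0) (hr' : ev 0 r' = 0) :
    ‖op hT r (S.G 0) - op hT r' (S.G 0)‖ ^ 2 ≤
      2 * ∫ θ, ‖S.err r θ‖ ^ 2 ∂vol01 + 2 * ∫ θ, ‖S.err r' θ‖ ^ 2 ∂vol01 := by
  rw [← LinearMap.sub_apply, ← map_sub (op hT), S.iso 0 _ (by simp [hr, hr'])]
  have hi := S.err_integrable r
  have hi' := S.err_integrable r'
  refine (integral_mono_of_nonneg (g := fun θ => 2 * ‖S.err r θ‖ ^ 2 + 2 * ‖S.err r' θ‖ ^ 2)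
    (Eventually.of_forall fun θ => sq_nonneg _) ((hi.const_mul 2).add (hi'.const_mul 2))
    (Eventually.of_forall fun θ => ?_)).trans ?_
  · have := norm_add_sq_le (S.err r θ) (-S.err r' θ)
    rw [norm_neg] at this
    refine le_trans (le_of_eq ?_) this
    simp only [err, map_sub]
    ring_nf
  · rw [integral_add (hi.const_mul 2) (hi'.const_mul 2), integral_const_mul, integral_const_mul]

theorem exists_cyclicLimit : ∃ r g, S.IsCyclicLimit r g := by
  set f : ℝ → ℝ := fun θ => ‖(S.w 0 θ : ℂ)‖ ^ 2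
  have hfi : Integrable f vol01 := (S.w_mem 0).norm.integrable_sq
  have hpos : ∀ᵐ θ ∂vol01, 0 < f θ := S.w_pos.mono fun θ hθ => by
    simp only [f, Complex.norm_real, Real.norm_eq_abs]
    positivity
  have hsq : ∀ᵐ θ ∂vol01, Real.sqrt (f θ) = S.w 0 θ := S.w_pos.mono fun θ hθ => by
    simp only [f, Complex.norm_real]
    rw [Real.sqrt_sq (norm_nonneg _), Real.norm_of_nonneg hθ.le]
  have hr0 : ∀ i : ℕ, ∃ r : TP, ev 0 r = 0 ∧
      ∫ θ, ‖S.err r θ‖ ^ 2 ∂vol01 ≤ 1 / ((i : ℝ) + 1) := fun i => by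
    obtain ⟨r, h0, hr⟩ := exists_tp_near (f := f) (fun θ => sq_nonneg _) hfi hpos
      (memLp_const (1 : ℂ)) (show 0 < 1 / ((i : ℝ) + 1) by positivity)
    refine ⟨r, h0, le_trans (le_of_eq (integral_congr_ae ?_)) hr⟩
    filter_upwards [hsq] with θ hθ
    rw [hθ, err]
  choose r hr0' hr using hr0
  have hcs : CauchySeq fun i => op hT (r i) (S.G 0) := by
    refine Metric.cauchySeq_iff'.2 fun ε hε => ?_
    obtain ⟨N, hN⟩ := exists_nat_gt (4 / ε ^ 2)
    refine ⟨N, fun i hi => ?_⟩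
    rw [dist_eq_norm]
    refine lt_of_pow_lt_pow_left₀ 2 hε.le ((S.dist_le (hr0' i) (hr0' N)).trans_lt ?_)
    have hNi : (N : ℝ) ≤ i := by exact_mod_cast hi
    have h1 : 1 / ((i : ℝ) + 1) ≤ 1 / ((N : ℝ) + 1) :=
      div_le_div_of_nonneg_left zero_le_one (by positivity) (by linarith)
    have h2 : 4 / ((N : ℝ) + 1) < ε ^ 2 := by
      rw [div_lt_iff₀ (by positivity)]
      rw [div_lt_iff₀ (by positivity)] at hN
      nlinarith
    linarith [show 4 / ((N : ℝ) + 1) = 4 * (1 / ((N : ℝ) + 1)) by ring, hr i, hr N]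
  obtain ⟨g, hg⟩ := cauchySeq_tendsto_of_complete hcs
  exact ⟨r, g, hr0', hr, hg⟩

/-- The norm on the cyclic space of `g`. -/
theorem norm_cyclic {r : ℕ → TP} {g : Lp ℂ 2 μ} (h : S.IsCyclicLimit r g) (s : TP) :
    ‖op hT s g‖ ^ 2 = ∫ θ, ‖ev θ s‖ ^ 2 ∂vol01 := by
  obtain ⟨hr0, hr, hg⟩ := h
  refine tendsto_nhds_unique ((tendsto_op hT s hg).norm.pow 2) ?_
  obtain ⟨B, hB0, hB⟩ := exists_ev_bound s
  rw [Metric.tendsto_atTop]
  intro ε hε
  obtain ⟨t, ht, htB⟩ : ∃ t : ℝ, 0 < t ∧ B ^ 2 * t ≤ ε / 4 :=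
    ⟨ε / (4 * (B ^ 2 + 1)), by positivity, by
      rw [mul_div_assoc', div_le_div_iff₀ (by positivity) (by norm_num)]; nlinarith⟩
  obtain ⟨N, hN⟩ := Metric.tendsto_atTop.1
    ((tendsto_one_div_add_atTop_nhds_zero_nat (𝕜 := ℝ)).const_mul ((1 + 1 / t) * B ^ 2))
    (ε / 4) (by positivity)
  refine ⟨N, fun i hi => ?_⟩
  have h1 := hN i hi
  rw [mul_zero, Real.dist_eq, sub_zero, abs_of_nonneg (by positivity)] at h1
  rw [Real.dist_eq, ← op_mul, S.iso 0 _ (by simp [hr0]), ← integral_sub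
    ((S.mem_ev_w (s * r i) 0).norm.integrable_sq) ((memLp_ev s).norm.integrable_sq)]
  refine lt_of_le_of_lt ((abs_integral_le_integral_abs).trans ?_) (show
    (1 + 1 / t) * B ^ 2 * (1 / ((i : ℝ) + 1)) + B ^ 2 * t < ε by linarith)
  have hi := S.err_integrable (r i)
  refine (integral_mono_of_nonneg
    (g := fun θ => (1 + 1 / t) * B ^ 2 * ‖S.err (r i) θ‖ ^ 2 + B ^ 2 * t)
    (Eventually.of_forall fun θ => abs_nonneg _) ((hi.const_mul _).add (integrable_const _))
    (Eventually.of_forall fun θ => ?_)).trans ?_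
  · dsimp only
    rw [map_mul, mul_assoc, norm_mul, mul_pow,
      show ev θ (r i) * (S.w 0 θ : ℂ) = 1 + S.err (r i) θ by simp [err]]
    set u := S.err (r i) θ
    have hz1 : ‖1 + u‖ ≤ 1 + ‖u‖ := (norm_add_le _ _).trans (by simp)
    have hz2 : 1 - ‖u‖ ≤ ‖1 + u‖ := by simpa using norm_sub_norm_le (1 : ℂ) (-u)
    have hz0 := norm_nonneg u
    have hab : |‖1 + u‖ ^ 2 - 1| ≤ ‖u‖ ^ 2 + 2 * ‖u‖ := by
      rw [abs_le]
      constructor
      · rcases le_total ‖u‖ 1 with h | h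
        · nlinarith [pow_le_pow_left₀ (sub_nonneg.2 h) hz2 2]
        · nlinarith [sq_nonneg ‖1 + u‖]
      · nlinarith [pow_le_pow_left₀ (norm_nonneg _) hz1 2]
    have h2u : 2 * ‖u‖ ≤ 1 / t * ‖u‖ ^ 2 + t := by
      have h : 0 ≤ 1 / t * (‖u‖ - t) ^ 2 := by positivity
      have e1 : 1 / t * (‖u‖ - t) ^ 2 = 1 / t * ‖u‖ ^ 2 + t - 2 * ‖u‖ := by
        field_simp
        ring
      linarith
    calc |‖ev θ s‖ ^ 2 * ‖1 + u‖ ^ 2 - ‖ev θ s‖ ^ 2|
        = ‖ev θ s‖ ^ 2 * |‖1 + u‖ ^ 2 - 1| := by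
          rw [← mul_sub_one, abs_mul, abs_of_nonneg (sq_nonneg ‖ev θ s‖)]
      _ ≤ B ^ 2 * ((1 + 1 / t) * ‖u‖ ^ 2 + t) :=
          mul_le_mul (pow_le_pow_left₀ (norm_nonneg _) (hB θ) 2) (by linarith) (abs_nonneg _)
            (sq_nonneg _)
      _ = _ := by ring
  · rw [integral_add (hi.const_mul _) (integrable_const _), integral_const_mul, integral_const]
    simp only [Measure.restrict_apply MeasurableSet.univ, univ_inter, measureReal_def,
      Real.volume_Ioc, sub_zero, ENNReal.toReal_ofReal zero_le_one, one_smul]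
    exact add_le_add (mul_le_mul_of_nonneg_left (hr i) (by positivity)) le_rfl

/-- The orbit of `g` is orthonormal. -/
theorem inner_cyclic {r : ℕ → TP} {g : Lp ℂ 2 μ} (h : S.IsCyclicLimit r g) (a b : ℤ) :
    ⟪koop hT a g, koop hT b g⟫_ℂ = if a = b then 1 else 0 := by
  rw [inner_eq_sum_norm_sq_div_four]
  have hs : ∀ c : ℂ, ((‖koop hT a g + c • koop hT b g‖ : ℝ) : ℂ) ^ 2 =
      ∫ θ, ((‖e (a * θ) + c * e (b * θ)‖ : ℝ) : ℂ) ^ 2 ∂vol01 := fun c => by
    have h := S.norm_cyclic h (AddMonoidAlgebra.single a 1 + AddMonoidAlgebra.single b c)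
    simp only [map_add, LinearMap.add_apply, op_single, one_smul, ev_single, one_mul] at h
    rw [← Complex.ofReal_pow, h, ← integral_complex_ofReal]
    simp
  have hint : ∀ c : ℂ, Integrable
      (fun θ => ((‖e (a * θ) + c * e (b * θ)‖ : ℝ) : ℂ) ^ 2) vol01 := fun c => by
    refine Continuous.integrableOn_Ioc ?_
    simp only [e]
    fun_prop
  have e1 := hs 1
  have e2 := hs (-1)
  have e3 := hs (-Complex.I)
  have e4 := hs Complex.I
  simp only [one_smul, neg_smul, ← sub_eq_add_neg] at e1 e2 e3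
  simp only [RCLike.I_to_complex] at *
  erw [e1, e2, e3, e4]
  rw [← integral_sub (hint _) (hint _), ← integral_sub (hint _) (hint _), ← integral_mul_const,
    ← integral_add]
  rotate_left
  · exact (hint _).sub (hint _)
  · exact ((hint _).sub (hint _)).mul_const _
  rw [← integral_div]
  rw [show (if a = b then (1 : ℂ) else 0) = ∫ θ, e (((b - a : ℤ) : ℝ) * θ) ∂vol01 by
    rw [integral_e_int]; exact if_congr ⟨fun h => by omega, fun h => by omega⟩ rfl rfl]
  refine integral_congr_ae (Eventually.of_forall fun θ => ?_)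
  have h := inner_eq_sum_norm_sq_div_four (𝕜 := ℂ) (e (a * θ)) (e (b * θ))
  rw [RCLike.inner_apply] at h
  simp only [RCLike.I_to_complex, smul_eq_mul] at h
  have hlhs : e (b * θ) * conj (e (a * θ)) = e (((b - a : ℤ) : ℝ) * θ) := by
    simp only [e, ← Complex.exp_conj, ← Complex.exp_add, map_mul, Complex.conj_ofReal,
      Complex.conj_I]
    push_cast
    ring_nf
  dsimp only
  rw [← hlhs, h]
  simp only [one_mul, neg_mul, ← sub_eq_add_neg]
  rfl

/-- The phase of the `k`-th product. -/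
def phase (k : ℕ) (θ : ℝ) : ℂ := ev θ (S.D k) / (‖ev θ (S.D k)‖ : ℂ)

lemma norm_phase_le (k : ℕ) (θ : ℝ) : ‖S.phase k θ‖ ≤ 1 := by
  simp only [phase, norm_div, Complex.norm_real, norm_norm]
  exact div_self_le_one _

lemma phase_measurable (k : ℕ) : AEStronglyMeasurable (S.phase k) vol01 :=
  ((continuous_ev (S.D k)).aestronglyMeasurable.aemeasurable.div
    (Complex.continuous_ofReal.comp (continuous_ev (S.D k)).norm).aemeasurable).aestronglyMeasurable

/-- The target of the approximation of `q (U) F k` in the cyclic space. -/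
def target (k : ℕ) (q : TP) (θ : ℝ) : ℂ := conj (S.phase k θ) * (ev θ q * (S.w k θ : ℂ))

lemma target_mem (k : ℕ) (q : TP) : MemLp (S.target k q) 2 vol01 := by
  refine (S.mem_ev_w q k).of_le_mul (c := 1)
    ((Complex.continuous_conj.comp_aestronglyMeasurable (S.phase_measurable k)).mul
      (S.mem_ev_w q k).1)
    (Eventually.of_forall fun θ => ?_)
  rw [target, norm_mul, RCLike.norm_conj]
  exact mul_le_mul_of_nonneg_right (S.norm_phase_le k θ) (norm_nonneg _)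

/-- The pointwise estimate behind completeness. -/
lemma split_ae (k : ℕ) (q t r : TP) {B : ℝ} (hB : ∀ θ, ‖ev θ t‖ ≤ B) :
    ∀ᵐ θ ∂vol01, ‖ev θ (t * r * S.D k - q) * (S.w k θ : ℂ)‖ ^ 2 ≤
      2 * B ^ 2 * ‖S.err r θ‖ ^ 2 + 2 * ‖ev θ t - S.target k q θ‖ ^ 2 := by
  filter_upwards [S.w_recur k, S.w_pos] with θ h1 h2
  have hD : ev θ (S.D k) ≠ 0 := by
    intro h0
    rw [h1, h0] at h2
    simp at h2
  have hn : (‖ev θ (S.D k)‖ : ℂ) ≠ 0 := by simpa using hD
  have hp1 : ‖S.phase k θ‖ = 1 := by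
    simp only [phase, norm_div, Complex.norm_real, norm_norm]
    exact div_self (norm_ne_zero_iff.2 hD)
  have hpD : ev θ (S.D k) * (S.w k θ : ℂ) = S.phase k θ * (S.w 0 θ : ℂ) := by
    rw [h1]
    simp only [phase]
    push_cast
    field_simp
  have hpq : S.phase k θ * S.target k q θ = ev θ q * (S.w k θ : ℂ) := by
    rw [target, ← mul_assoc, Complex.mul_conj', hp1]
    simp
  have hsplit : ev θ (t * r * S.D k - q) * (S.w k θ : ℂ) =
      ev θ t * S.phase k θ * S.err r θ + S.phase k θ * (ev θ t - S.target k q θ) := by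
    simp only [err, map_sub, map_mul]
    linear_combination (ev θ t * ev θ r) * hpD + hpq
  rw [hsplit]
  refine (norm_add_sq_le _ _).trans ?_
  rw [norm_mul, norm_mul, norm_mul, hp1, mul_one, one_mul, mul_pow]
  have := mul_le_mul_of_nonneg_right (pow_le_pow_left₀ (norm_nonneg _) (hB θ) 2)
    (sq_nonneg ‖S.err r θ‖)
  linarith

/-- `q (U) F k` is in the cyclic space of `g`. -/
theorem exists_near {r : ℕ → TP} {g : Lp ℂ 2 μ} (h : S.IsCyclicLimit r g) (k : ℕ) {q : TP}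
    (hq : ev 0 q = 0) {δ : ℝ} (hδ : 0 < δ) :
    ∃ t : TP, ‖op hT t g - op hT q (S.G k)‖ ^ 2 ≤ δ := by
  obtain ⟨hr0, hr, hg⟩ := h
  obtain ⟨t, -, ht⟩ := exists_tp_near (f := fun _ => 1) (fun _ => zero_le_one)
    (integrable_const 1) (Eventually.of_forall fun _ => one_pos) (S.target_mem k q)
    (show 0 < δ / 2 by positivity)
  simp only [Real.sqrt_one, Complex.ofReal_one, mul_one] at ht
  have htψ : Integrable (fun θ => ‖ev θ t - S.target k q θ‖ ^ 2) vol01 :=
    ((memLp_ev t).sub (S.target_mem k q)).norm.integrable_sq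
  obtain ⟨B, -, hB⟩ := exists_ev_bound t
  refine ⟨t, ?_⟩
  have hbound : ∀ i, ‖op hT t (op hT (r i) (S.G 0)) - op hT q (S.G k)‖ ^ 2 ≤
      2 * B ^ 2 * (1 / ((i : ℝ) + 1)) + δ := fun i => by
    rw [S.recur k, ← op_mul, ← op_mul, ← LinearMap.sub_apply, ← map_sub (op hT),
      S.iso k _ (by simp [hr0, hq])]
    have hi := S.err_integrable (r i)
    refine (integral_mono_of_nonneg (g := fun θ => 2 * B ^ 2 * ‖S.err (r i) θ‖ ^ 2 +
        2 * ‖ev θ t - S.target k q θ‖ ^ 2) (Eventually.of_forall fun θ => sq_nonneg _)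
      ((hi.const_mul _).add (htψ.const_mul 2)) (S.split_ae k q t (r i) hB)).trans ?_
    rw [integral_add (hi.const_mul _) (htψ.const_mul 2), integral_const_mul, integral_const_mul]
    have := mul_le_mul_of_nonneg_left (hr i) (show 0 ≤ 2 * B ^ 2 by positivity)
    linarith
  refine le_of_tendsto_of_tendsto' (((tendsto_op hT t hg).sub tendsto_const_nhds).norm.pow 2) ?_
    hbound
  simpa using ((tendsto_one_div_add_atTop_nhds_zero_nat (𝕜 := ℝ)).const_mul
    (2 * B ^ 2)).add_const δ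

/-- A vector orthogonal to the orbit of `g` is orthogonal to every `q (U) F k`. -/
theorem inner_eq_zero {r : ℕ → TP} {g : Lp ℂ 2 μ} (h : S.IsCyclicLimit r g) {Φ : Lp ℂ 2 μ}
    (hΦ : ∀ a, ⟪koop hT a g, Φ⟫_ℂ = 0) (k : ℕ) {q : TP} (hq : ev 0 q = 0) :
    ⟪op hT q (S.G k), Φ⟫_ℂ = 0 := by
  have hgΦ : ∀ t : TP, ⟪op hT t g, Φ⟫_ℂ = 0 := fun t => by
    induction t using AddMonoidAlgebra.induction_linear with
    | zero => simp
    | single a c => rw [op_single, inner_smul_left, hΦ, mul_zero]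
    | add s t hs ht => rw [map_add, LinearMap.add_apply, inner_add_left, hs, ht, add_zero]
  refine norm_le_zero_iff.1 (le_of_forall_pos_le_add fun ε hε => ?_)
  rw [zero_add]
  set δ := ε ^ 2 / (‖Φ‖ ^ 2 + 1) with hδ
  obtain ⟨t, ht⟩ := S.exists_near h k hq (show 0 < δ by positivity)
  rw [show ⟪op hT q (S.G k), Φ⟫_ℂ = ⟪op hT q (S.G k) - op hT t g, Φ⟫_ℂ by
    rw [inner_sub_left, hgΦ, sub_zero]]
  refine (norm_inner_le_norm _ _).trans ?_
  rw [norm_sub_rev]
  have h3 : (‖op hT t g - op hT q (S.G k)‖ * ‖Φ‖) ^ 2 ≤ ε ^ 2 := by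
    rw [mul_pow]
    refine (mul_le_mul_of_nonneg_right ht (sq_nonneg _)).trans ?_
    rw [hδ, div_mul_eq_mul_div, div_le_iff₀ (by positivity)]
    nlinarith [sq_nonneg ‖Φ‖, sq_nonneg ε]
  exact (pow_le_pow_iff_left₀ (by positivity) hε.le two_ne_zero).1 h3

lemma integral_cyclic [IsFiniteMeasure μ] {r : ℕ → TP} {g : Lp ℂ 2 μ}
    (h : S.IsCyclicLimit r g) : ∫ x, g x ∂μ = 0 := by
  obtain ⟨hr0, -, hg⟩ := h
  have h1 : ∀ H : Lp ℂ 2 μ,
      ∫ x, H x ∂μ = ⟪(memLp_const (1 : ℂ)).toLp (fun _ : X => (1 : ℂ)), H⟫_ℂ := fun H => by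
    rw [L2.inner_def]
    refine integral_congr_ae ?_
    filter_upwards [(memLp_const (1 : ℂ) (p := 2) (μ := μ)).coeFn_toLp] with x hx
    rw [hx, RCLike.inner_apply]
    simp
  have hc : Tendsto (fun i => ∫ x, op hT (r i) (S.G 0) x ∂μ) atTop (𝓝 (∫ x, g x ∂μ)) := by
    simp only [h1]
    exact tendsto_const_nhds.inner hg
  refine tendsto_nhds_unique hc ?_
  simp only [integral_op, hr0, zero_mul]
  exact tendsto_const_nhds

end SpecData

/-- The data supplied by a system and its densities. -/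
theorem exists_specData {X : Type} [MeasurableSpace X] {μ : Measure X} {T : X ≃ᵐ X}
    (hT : MeasurePreserving T μ μ) (R : RankOne) {f : ℕ → ℝ → ℝ} (hf0 : ∀ k θ, 0 ≤ f k θ)
    (hfi : ∀ k, IntegrableOn (f k) (Ioc 0 1)) (hpos : ∀ᵐ θ ∂vol01, 0 < f 0 θ)
    (hrec : ∀ k, ∀ᵐ θ ∂vol01, f k θ = ‖R.P k θ‖ ^ 2 * f (k + 1) θ)
    (hlim : ∀ (k : ℕ) (r : TP), ev 0 r = 0 →
      Tendsto (fun n => ∫ θ in (0 : ℝ)..1, ‖ev θ r‖ ^ 2 * R.riesz k n θ) atTop
        (𝓝 (∫ θ in (0 : ℝ)..1, ‖ev θ r‖ ^ 2 * f k θ)))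
    {F : ℕ → X → ℂ} {ν : ℕ → ℝ}
    (hFν : ∀ k, MemLp (F k) 2 μ ∧ 0 < ν k ∧ ν (k + 1) = ν k / R.p k)
    (hFrec : ∀ k, F k =ᵐ[μ] fun x =>
      ∑ j ∈ Finset.range (R.p k), F (k + 1) (iter T (R.pos k j : ℤ) x))
    (hcor : ∀ k (a b : ℤ), Tendsto
      (fun n => ((ν k : ℝ) : ℂ) * ∫ θ in (0 : ℝ)..1, (R.riesz k n θ : ℂ) * e ((b - a) * θ))
      atTop (𝓝 (∫ x, conj (F k (iter T a x)) * F k (iter T b x) ∂μ))) :
    ∃ S : SpecData hT, ∀ k, S.G k = (hFν k).1.toLp (F k) := by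
  set G : ℕ → Lp ℂ 2 μ := fun k => (hFν k).1.toLp (F k)
  have hG : ∀ k, G k = op hT (stageTP R k) (G (k + 1)) := fun k => by
    refine Lp.ext (((hFν k).1.coeFn_toLp).trans ((hFrec k).trans ?_))
    rw [stageTP, map_sum, LinearMap.coe_sum, Finset.sum_apply]
    refine EventuallyEq.trans ?_ (Lp.coeFn_finsetSum (Finset.range (R.p k))
      (fun j => op hT (AddMonoidAlgebra.single ((R.pos k j : ℕ) : ℤ) 1) (G (k + 1)))).symm
    have hall : ∀ᵐ x ∂μ, ∀ j : ℕ,
        op hT (AddMonoidAlgebra.single ((R.pos k j : ℕ) : ℤ) 1) (G (k + 1)) x =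
          F (k + 1) (iter T (R.pos k j : ℤ) x) := by
      refine ae_all_iff.2 fun j => ?_
      rw [op_single, one_smul]
      exact koop_toLp hT _ (hFν (k + 1)).1
    filter_upwards [hall] with x hx
    rw [Finset.sum_apply]
    exact Finset.sum_congr rfl fun j _ => (hx j).symm
  refine ⟨⟨G, fun k θ => Real.sqrt (ν k * f k θ), prodTP R, fun k => ?_, fun k r hr =>
    norm_op_eq hT hlim (hFν k).1 k (hFν k).2.1.le (hcor k) (hf0 k) hr, fun k => ?_, fun k => ?_,
    hpos.mono fun θ hθ => Real.sqrt_pos.2 (mul_pos (hFν 0).2.1 hθ)⟩, fun k => rfl⟩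
  · have hm : AEStronglyMeasurable (fun θ => (Real.sqrt (ν k * f k θ) : ℂ)) vol01 :=
      (Complex.continuous_ofReal.comp Real.continuous_sqrt).comp_aestronglyMeasurable
        ((hfi k).1.const_mul (ν k))
    rw [memLp_two_iff_integrable_sq_norm hm]
    refine ((hfi k).const_mul (ν k)).congr (Eventually.of_forall fun θ => ?_)
    simp only [Complex.norm_real, Real.norm_of_nonneg (Real.sqrt_nonneg _)]
    rw [Real.sq_sqrt (mul_nonneg (hFν k).2.1.le (hf0 k θ))]
  · induction k with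
    | zero => simp [prodTP]
    | succ k ih =>
      rw [show prodTP R (k + 1) = prodTP R k * stageTP R k from Finset.prod_range_succ _ _, op_mul,
        ← hG k]
      exact ih
  · induction k with
    | zero => exact Eventually.of_forall fun θ => by simp [prodTP]
    | succ k ih =>
      filter_upwards [ih, hrec k] with θ h1 h2
      have hp : (0 : ℝ) < R.p k := by have := R.two_le k; positivity
      rw [h1, show prodTP R (k + 1) = prodTP R k * stageTP R k from Finset.prod_range_succ _ _,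
        map_mul, norm_mul, mul_assoc]
      congr 1
      rw [ev_stageTP, norm_mul, Complex.norm_real, Real.norm_of_nonneg (Real.sqrt_nonneg _),
        ← Real.sqrt_sq (norm_nonneg (R.P k θ)), ← Real.sqrt_mul hp.le, ← Real.sqrt_mul
          (by positivity), h2, (hFν k).2.2]
      congr 1
      field_simp

/-- **The Hilbert space part.** -/
theorem simpleLebesgue_of_densities (hR : RankOneGoal) (R : RankOne)
    (hsum : Summable (fun k => ((∑ j ∈ Finset.range (R.p k), R.a k j : ℕ) : ℝ) /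
      (R.p k * R.h k : ℕ)))
    (hd : HasDensities R) : SimpleLebesgueGoal := by
  obtain ⟨f, hf0, hfi, hpos, hrec, hlim⟩ := hd
  obtain ⟨X, mX, hX, μ, hμ, hatom, T, F, ν, hT, hFν, hFrec, hcor, herg⟩ := hR R hsum
  obtain ⟨S, hS⟩ := exists_specData hT R hf0 hfi (hpos 0) hrec hlim hFν hFrec hcor
  obtain ⟨r, g, hg⟩ := S.exists_cyclicLimit
  refine ⟨X, mX, hX, μ, hμ, hatom, T, hT, g, Lp.memLp g, S.integral_cyclic hg, fun a b => ?_, ?_⟩
  · rw [← inner_koop hT a b (Lp.memLp g) (Lp.memLp g), Lp.toLp_coeFn]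
    exact S.inner_cyclic hg a b
  intro φ hφ hφ0 horth
  have hΦ : ∀ a, ⟪koop hT a g, hφ.toLp φ⟫_ℂ = 0 := fun a => by
    have h := inner_koop hT a 0 (Lp.memLp g) hφ
    rw [Lp.toLp_coeFn, koop_zero] at h
    rw [h]
    simpa [iter_zero] using horth a
  have hinv : ∀ k (a : ℤ), ∫ x, conj (F k (iter T a x)) * φ x ∂μ =
      ∫ x, conj (F k x) * φ x ∂μ := fun k a => by
    have h := S.inner_eq_zero hg hΦ k (q := AddMonoidAlgebra.single a 1 - 1)
      (by rw [map_sub, map_one, ev_single]; simp [e])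
    rw [map_sub, map_one, LinearMap.sub_apply, op_single, one_smul, inner_sub_left,
      sub_eq_zero, hS] at h
    have h1 := inner_koop hT a 0 (hFν k).1 hφ
    have h2 := inner_koop hT 0 0 (hFν k).1 hφ
    rw [koop_zero] at h1
    rw [koop_zero, koop_zero] at h2
    simpa only [iter_zero, id] using h1.symm.trans (h.trans h2)
  obtain ⟨c, hc⟩ := herg φ hφ hinv
  have hc0 : c = 0 := by
    rw [integral_congr_ae hc] at hφ0
    simpa using hφ0
  filter_upwards [hc] with x hx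
  rw [hx, hc0]
  rfl

/-- Positive densities give simple Lebesgue spectrum. -/
theorem simpleLebesgue_of_riesz (hR : RankOneGoal) (h : RieszGoal) : SimpleLebesgueGoal := by
  obtain ⟨R, hs, hd⟩ := hasDensities_of_riesz h
  exact simpleLebesgue_of_densities hR R hs hd

end

end Vale.Agent.P130.Lebesgue.Hilb
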