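import Vale.Agent.P130.Lebesgue.Spectral.Interface

/-!
# Trigonometric polynomials are dense in weighted square integrable functions
-/

namespace Vale.Agent.P130.Lebesgue.Hilb

open MeasureTheory Filter Set
open scoped Topology ENNReal

noncomputable section

/-- Lebesgue measure on the unit interval. -/
abbrev vol01 : Measure ℝ := volume.restrict (Ioc (0 : ℝ) 1)

lemma interval_eq_vol01 {E : Type*} [NormedAddCommGroup E] [NormedSpace ℝ E] (h : ℝ → E) :
    ∫ θ in (0 : ℝ)..1, h θ = ∫ θ, h θ ∂vol01 :=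
  intervalIntegral.integral_of_le zero_le_one

lemma e_add (x y : ℝ) : e (x + y) = e x * e y := by
  simp only [e, ← Complex.exp_add]
  push_cast
  ring_nf

lemma e_eq_fourier (a : ℤ) (θ : ℝ) : fourier a (θ : AddCircle (1 : ℝ)) = e (a * θ) := by
  rw [fourier_coe_apply, e]
  congr 1
  push_cast
  ring

lemma ev_single (θ : ℝ) (a : ℤ) (c : ℂ) :
    ev θ (AddMonoidAlgebra.single a c) = c * e (a * θ) := by
  rw [ev, AddMonoidAlgebra.lift_single]
  rfl

lemma ev_norm_e (x : ℝ) : ‖e x‖ = 1 := by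
  rw [e, Complex.norm_exp_ofReal_mul_I]

lemma continuous_ev (r : TP) : Continuous fun θ => ev θ r := by
  induction r using AddMonoidAlgebra.induction_linear with
  | zero => simpa using continuous_const
  | single a c => simp only [ev_single, e]; fun_prop
  | add r s hr hs => simp only [map_add]; exact hr.add hs

/-- A bound for the values. -/
lemma exists_ev_bound (r : TP) : ∃ B : ℝ, 0 ≤ B ∧ ∀ θ, ‖ev θ r‖ ≤ B := by
  induction r using AddMonoidAlgebra.induction_linear with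
  | zero => exact ⟨0, le_rfl, fun θ => by simp⟩
  | single a c => exact ⟨‖c‖, norm_nonneg _, fun θ => by
      rw [ev_single, norm_mul, ev_norm_e, mul_one]⟩
  | add r s hr hs =>
    obtain ⟨B, hB, hr⟩ := hr
    obtain ⟨C, hC, hs⟩ := hs
    exact ⟨B + C, add_nonneg hB hC, fun θ => by
      rw [map_add]; exact (norm_add_le _ _).trans (add_le_add (hr θ) (hs θ))⟩

/-- The squared norm of a square integrable function. -/
lemma norm_sq_Lp {X : Type*} [MeasurableSpace X] {μ : Measure X} (u : Lp ℂ 2 μ) :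
    ‖u‖ ^ 2 = ∫ x, ‖u x‖ ^ 2 ∂μ := by
  have h := L2.inner_def (𝕜 := ℂ) u u
  rw [inner_self_eq_norm_sq_to_K, integral_congr_ae (Eventually.of_forall fun x =>
    inner_self_eq_norm_sq_to_K (𝕜 := ℂ) (u x))] at h
  simp only [← RCLike.ofReal_pow] at h
  rw [integral_ofReal] at h
  exact RCLike.ofReal_injective h

/-- The mean of the first `N` characters. -/
def avg (N : ℕ) : TP :=
  ((N : ℂ)⁻¹) • ∑ j ∈ Finset.range N, AddMonoidAlgebra.single (j : ℤ) 1

lemma ev_avg (θ : ℝ) (N : ℕ) :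
    ev θ (avg N) = (N : ℂ)⁻¹ * ∑ j ∈ Finset.range N, e θ ^ j := by
  have h : ∀ j : ℕ, e ((j : ℤ) * θ) = e θ ^ j := fun j => by
    rw [e, e, ← Complex.exp_nat_mul]
    push_cast
    ring_nf
  simp only [avg, map_smul, map_sum, ev_single, one_mul, smul_eq_mul, h]

lemma ev_zero_avg {N : ℕ} (hN : 0 < N) : ev 0 (avg N) = 1 := by
  simp [ev_avg, e, hN.ne']

lemma norm_ev_avg_le (θ : ℝ) (N : ℕ) : ‖ev θ (avg N)‖ ≤ 1 := by
  rw [ev_avg, norm_mul, norm_inv, Complex.norm_natCast]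
  refine (mul_le_mul_of_nonneg_left (norm_sum_le _ _) (by positivity)).trans ?_
  simp only [norm_pow, ev_norm_e, one_pow, Finset.sum_const, Finset.card_range, nsmul_eq_mul,
    mul_one]
  rcases Nat.eq_zero_or_pos N with rfl | hN
  · simp
  · rw [inv_mul_cancel₀ (by positivity)]

lemma e_ne_one {θ : ℝ} (h0 : 0 < θ) (h1 : θ < 1) : e θ ≠ 1 := by
  intro h
  rw [e, Complex.exp_eq_one_iff] at h
  obtain ⟨k, hk⟩ := h
  have := congrArg Complex.im hk
  simp at this
  have h2 : θ = k := by nlinarith [Real.pi_pos]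
  rw [h2] at h0 h1
  have a : (0 : ℤ) < k := by exact_mod_cast h0
  have b : k < (1 : ℤ) := by exact_mod_cast h1
  omega

lemma tendsto_ev_avg {θ : ℝ} (h0 : 0 < θ) (h1 : θ < 1) :
    Tendsto (fun N => ev θ (avg N)) atTop (𝓝 0) := by
  refine squeeze_zero_norm (fun N => ?_)
    (show Tendsto (fun N : ℕ => (N : ℝ)⁻¹ * (2 / ‖e θ - 1‖)) atTop (𝓝 0) by
      simpa using tendsto_inv_atTop_nhds_zero_nat.mul_const (2 / ‖e θ - 1‖))
  rw [ev_avg, geom_sum_eq (e_ne_one h0 h1), norm_mul, norm_inv, Complex.norm_natCast, norm_div]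
  refine mul_le_mul_of_nonneg_left (div_le_div_of_nonneg_right ?_ (norm_nonneg _)) (by positivity)
  refine (norm_sub_le _ _).trans ?_
  rw [norm_pow, ev_norm_e, one_pow, norm_one]
  norm_num

/-- Trigonometric polynomials approximate in the weighted norm. -/
theorem exists_tp_weighted {f : ℝ → ℝ} (hf0 : ∀ θ, 0 ≤ f θ) (hfi : Integrable f vol01)
    {φ : ℝ → ℂ} (hφm : AEStronglyMeasurable φ vol01)
    (hφ : Integrable (fun θ => f θ * ‖φ θ‖ ^ 2) vol01) {ε : ℝ} (hε : 0 < ε) :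
    ∃ r : TP, ∫ θ, f θ * ‖ev θ r - φ θ‖ ^ 2 ∂vol01 ≤ ε := by
  set d : ℝ → ℝ≥0∞ := fun θ => ENNReal.ofReal (f θ)
  have hdm : AEMeasurable d vol01 := hfi.aemeasurable.ennreal_ofReal
  set μf := vol01.withDensity d
  have : IsFiniteMeasure μf := isFiniteMeasure_withDensity_ofReal hfi.2
  set π : ℝ → AddCircle (1 : ℝ) := fun θ => (θ : AddCircle (1 : ℝ))
  have hπ : Measurable π := (AddCircle.continuous_mk' 1).measurable
  set ν := μf.map π
  set sec : AddCircle (1 : ℝ) → ℝ := fun y => (AddCircle.measurableEquivIoc 1 0 y : ℝ)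
  have hsec : Measurable sec :=
    measurable_subtype_coe.comp (AddCircle.measurableEquivIoc 1 0).measurable
  have hmem : ∀ᵐ θ ∂μf, sec (π θ) = θ := by
    refine (withDensity_absolutelyContinuous _ _).ae_le ?_
    filter_upwards [ae_restrict_mem measurableSet_Ioc] with θ hθ
    have : θ ∈ Ioc (0 : ℝ) (0 + 1) := by simpa using hθ
    exact congrArg Subtype.val ((AddCircle.equivIoc (1 : ℝ) 0).apply_symm_apply ⟨θ, this⟩)
  obtain ⟨φ', hφ'm, hφ'⟩ := hφm
  have hφ'f : φ' =ᵐ[μf] φ := (withDensity_absolutelyContinuous _ _).ae_le hφ'.symm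
  have hint : ∀ h : ℝ → ℝ, ∫ θ, h θ ∂μf = ∫ θ, f θ * h θ ∂vol01 := fun h => by
    rw [integral_withDensity_eq_integral_toReal_smul₀ hdm (Eventually.of_forall fun θ =>
      ENNReal.ofReal_lt_top)]
    simp [d, ENNReal.toReal_ofReal (hf0 _)]
  have hΦ : MemLp (φ' ∘ sec) 2 ν := by
    refine (memLp_map_measure_iff (hφ'm.comp_measurable hsec).aestronglyMeasurable
      hπ.aemeasurable).2 ?_
    refine (memLp_congr_ae (g := φ') ?_).2 ?_
    · filter_upwards [hmem] with θ hθ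
      simp [Function.comp_apply, hθ]
    · rw [memLp_two_iff_integrable_sq_norm hφ'm.aestronglyMeasurable,
        integrable_withDensity_iff_integrable_smul₀' hdm (Eventually.of_forall fun θ =>
          ENNReal.ofReal_lt_top)]
      refine hφ.congr ?_
      filter_upwards [hφ'] with θ hθ
      simp [d, ENNReal.toReal_ofReal (hf0 _), hθ]
  have hdense : Dense ((ContinuousMap.toLp (E := ℂ) 2 ν ℂ) ''
      (Submodule.span ℂ (Set.range (@fourier 1)) : Set C(AddCircle (1 : ℝ), ℂ))) :=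
    (ContinuousMap.toLp_denseRange (E := ℂ) (𝕜 := ℂ) ν (by norm_num : (2 : ℝ≥0∞) ≠ ∞)).dense_image
      (ContinuousLinearMap.continuous _)
      (Submodule.dense_iff_topologicalClosure_eq_top.2 span_fourier_closure_eq_top)
  obtain ⟨_, hy, p, hp, rfl⟩ := Metric.dense_iff.1 hdense (hΦ.toLp _) (Real.sqrt ε)
    (Real.sqrt_pos.2 hε)
  obtain ⟨c, rfl⟩ := Finsupp.mem_span_range_iff_exists_finsupp.1 hp
  refine ⟨c.sum fun a z => AddMonoidAlgebra.single a z, ?_⟩
  rw [Metric.mem_ball, dist_eq_norm] at hy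
  have h2 := pow_le_pow_left₀ (norm_nonneg _) hy.le 2
  rw [Real.sq_sqrt hε.le, norm_sq_Lp] at h2
  refine le_trans (le_of_eq ?_) h2
  symm
  have hval : ∀ θ : ℝ, (c.sum fun a z => z • @fourier 1 a) (π θ) =
      ev θ (c.sum fun a z => AddMonoidAlgebra.single a z) := fun θ => by
    simp only [Finsupp.sum, map_sum, ev_single, ContinuousMap.coe_sum, Finset.sum_apply,
      ContinuousMap.coe_smul, Pi.smul_apply, smul_eq_mul, π, e_eq_fourier]
  calc ∫ y, ‖(ContinuousMap.toLp (E := ℂ) 2 ν ℂ (c.sum fun a z => z • @fourier 1 a) -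
        hΦ.toLp _ : Lp ℂ 2 ν) y‖ ^ 2 ∂ν
      = ∫ y, ‖(c.sum fun a z => z • @fourier 1 a) y - (φ' ∘ sec) y‖ ^ 2 ∂ν := by
        refine integral_congr_ae ?_
        filter_upwards [Lp.coeFn_sub (ContinuousMap.toLp (E := ℂ) 2 ν ℂ
            (c.sum fun a z => z • @fourier 1 a)) (hΦ.toLp _),
          ContinuousMap.coeFn_toLp (p := 2) (𝕜 := ℂ) ν (c.sum fun a z => z • @fourier 1 a),
          hΦ.coeFn_toLp] with y h1 h2 h3
        rw [h1, Pi.sub_apply, h2, h3]
    _ = ∫ θ, ‖(c.sum fun a z => z • @fourier 1 a) (π θ) - (φ' ∘ sec) (π θ)‖ ^ 2 ∂μf :=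
        integral_map hπ.aemeasurable ((((ContinuousMap.continuous _).aestronglyMeasurable).sub
          (hφ'm.comp_measurable hsec).aestronglyMeasurable).norm.pow 2)
    _ = ∫ θ, ‖ev θ (c.sum fun a z => AddMonoidAlgebra.single a z) - φ θ‖ ^ 2 ∂μf := by
        refine integral_congr_ae ?_
        filter_upwards [hmem, hφ'f] with θ h1 h2
        rw [hval, Function.comp_apply, h1, h2]
    _ = _ := hint _

/-- Trigonometric polynomials vanishing at zero, times the root of a density that is positive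
almost everywhere, are dense. -/
theorem exists_tp_near {f : ℝ → ℝ} (hf0 : ∀ θ, 0 ≤ f θ) (hfi : Integrable f vol01)
    (hpos : ∀ᵐ θ ∂vol01, 0 < f θ) {ψ : ℝ → ℂ} (hψ : MemLp ψ 2 vol01) {ε : ℝ} (hε : 0 < ε) :
    ∃ r : TP, ev 0 r = 0 ∧
      ∫ θ, ‖ev θ r * (Real.sqrt (f θ) : ℂ) - ψ θ‖ ^ 2 ∂vol01 ≤ ε := by
  set φ : ℝ → ℂ := fun θ => ψ θ / (Real.sqrt (f θ) : ℂ)
  have hsm : AEStronglyMeasurable (fun θ => (Real.sqrt (f θ) : ℂ)) vol01 :=
    (Complex.continuous_ofReal.comp Real.continuous_sqrt).comp_aestronglyMeasurable hfi.1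
  have hφm : AEStronglyMeasurable φ vol01 :=
    (hψ.1.aemeasurable.div hsm.aemeasurable).aestronglyMeasurable
  have hid : ∀ (g : ℝ → ℂ) (θ : ℝ), 0 < f θ →
      f θ * ‖g θ - φ θ‖ ^ 2 = ‖g θ * (Real.sqrt (f θ) : ℂ) - ψ θ‖ ^ 2 := fun g θ hθ => by
    have hne : (Real.sqrt (f θ) : ℂ) ≠ 0 := by
      exact_mod_cast (Real.sqrt_pos.2 hθ).ne'
    rw [show g θ * (Real.sqrt (f θ) : ℂ) - ψ θ = (g θ - φ θ) * (Real.sqrt (f θ) : ℂ) by
      simp only [φ]; field_simp, norm_mul, mul_pow, Complex.norm_real,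
      Real.norm_of_nonneg (Real.sqrt_nonneg _), Real.sq_sqrt hθ.le, mul_comm]
  have hφi : Integrable (fun θ => f θ * ‖φ θ‖ ^ 2) vol01 := by
    refine (hψ.norm.integrable_sq).congr ?_
    filter_upwards [hpos] with θ hθ
    have := hid (fun _ => 0) θ hθ
    simpa using this.symm
  obtain ⟨r, hr⟩ := exists_tp_weighted hf0 hfi hφm hφi (show 0 < ε / 4 by positivity)
  set c := ev 0 r
  have hlim : Tendsto (fun N => ∫ θ, f θ * ‖ev θ (avg N)‖ ^ 2 ∂vol01) atTop (𝓝 0) := by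
    rw [show (0 : ℝ) = ∫ _θ, (0 : ℝ) ∂vol01 by simp]
    refine tendsto_integral_of_dominated_convergence f
      (fun N => hfi.1.mul ((continuous_ev _).aestronglyMeasurable.norm.pow 2)) hfi
      (fun N => Eventually.of_forall fun θ => ?_) ?_
    · rw [Real.norm_of_nonneg (mul_nonneg (hf0 θ) (sq_nonneg _))]
      exact mul_le_of_le_one_right (hf0 θ) (pow_le_one₀ (norm_nonneg _) (norm_ev_avg_le θ N))
    · have h1 : ∀ᵐ θ ∂vol01, θ ∈ Ioo (0 : ℝ) 1 := by
        rw [vol01, ← restrict_Ioo_eq_restrict_Ioc]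
        exact ae_restrict_mem measurableSet_Ioo
      filter_upwards [h1] with θ hθ
      simpa using (((tendsto_ev_avg hθ.1 hθ.2).norm.pow 2).const_mul (f θ))
  obtain ⟨N, hN, hN'⟩ := ((eventually_gt_atTop 0).and
    (hlim.eventually (gt_mem_nhds (show 0 < ε / (4 * (‖c‖ ^ 2 + 1)) by positivity)))).exists
  refine ⟨r - c • avg N, by simp [map_sub, map_smul, ev_zero_avg hN, c], ?_⟩
  have hmb : ∀ s : TP, Integrable (fun θ => f θ * ‖ev θ s‖ ^ 2) vol01 := fun s => by
    obtain ⟨B, -, hB⟩ := exists_ev_bound s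
    refine (hfi.mul_const (B ^ 2)).mono'
      (hfi.1.mul ((continuous_ev _).aestronglyMeasurable.norm.pow 2))
      (Eventually.of_forall fun θ => ?_)
    rw [Real.norm_of_nonneg (mul_nonneg (hf0 θ) (sq_nonneg _))]
    exact mul_le_mul_of_nonneg_left (pow_le_pow_left₀ (norm_nonneg _) (hB θ) 2) (hf0 θ)
  have hr2 : Integrable (fun θ => f θ * ‖ev θ r - φ θ‖ ^ 2) vol01 := by
    refine (((hmb r).const_mul 2).add (hφi.const_mul 2)).mono'
      (hfi.1.mul (((continuous_ev _).aestronglyMeasurable.sub hφm).norm.pow 2))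
      (Eventually.of_forall fun θ => ?_)
    rw [Real.norm_of_nonneg (mul_nonneg (hf0 θ) (sq_nonneg _))]
    simp only [Pi.add_apply]
    have := pow_le_pow_left₀ (norm_nonneg _) (norm_sub_le (ev θ r) (φ θ)) 2
    nlinarith [hf0 θ, sq_nonneg (‖ev θ r‖ - ‖φ θ‖)]
  refine (integral_mono_of_nonneg (g := fun θ => 2 * (f θ * ‖ev θ r - φ θ‖ ^ 2) +
      2 * ‖c‖ ^ 2 * (f θ * ‖ev θ (avg N)‖ ^ 2)) (Eventually.of_forall fun θ => sq_nonneg _)
    ((hr2.const_mul 2).add ((hmb _).const_mul _)) ?_).trans ?_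
  · filter_upwards [hpos] with θ hθ
    rw [← hid (fun θ => ev θ (r - c • avg N)) θ hθ, map_sub, map_smul, smul_eq_mul,
      show ev θ r - c * ev θ (avg N) - φ θ = (ev θ r - φ θ) - c * ev θ (avg N) by ring]
    have := pow_le_pow_left₀ (norm_nonneg _)
      (norm_sub_le (ev θ r - φ θ) (c * ev θ (avg N))) 2
    rw [norm_mul] at this
    nlinarith [hf0 θ, sq_nonneg (‖ev θ r - φ θ‖ - ‖c‖ * ‖ev θ (avg N)‖)]
  · rw [integral_add (hr2.const_mul 2) ((hmb _).const_mul _), integral_const_mul,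
      integral_const_mul]
    have h3 : ‖c‖ ^ 2 * ∫ θ, f θ * ‖ev θ (avg N)‖ ^ 2 ∂vol01 ≤ ε / 4 := by
      refine (mul_le_mul_of_nonneg_left hN'.le (sq_nonneg _)).trans ?_
      rw [mul_div_assoc', div_le_div_iff₀ (by positivity) (by norm_num)]
      nlinarith [sq_nonneg ‖c‖]
    linarith

end

end Vale.Agent.P130.Lebesgue.Hilb
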