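import Vale.Agent.P130.Lebesgue.Defs

/-!
# Spectral analysis: the interface between the Riesz estimates and the Hilbert space part

`RieszGoal` is the analytic half: cutting and spacer data whose Riesz products have positive
densities, tested against squared trigonometric polynomials vanishing at `0`.
-/

namespace Vale.Agent.P130.Lebesgue

open MeasureTheory Filter
open scoped ComplexConjugate Topology

/-- The trigonometric polynomial with coefficients `c`. -/
noncomputable def trig (c : ℤ →₀ ℂ) (θ : ℝ) : ℂ := c.sum fun a z => z * e (a * θ)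

/-- Stage data with positive spectral densities `f k` on one period. -/
def RieszGoal : Prop :=
  ∃ (R : RankOne) (f : ℕ → ℝ → ℝ),
    Summable (fun k => ((∑ j ∈ Finset.range (R.p k), R.a k j : ℕ) : ℝ) / (R.p k * R.h k : ℕ)) ∧
    (∀ k, Measurable (f k) ∧ (∀ θ, 0 ≤ f k θ) ∧ IntegrableOn (f k) (Set.Ioc 0 1) ∧
      ∫ θ in (0 : ℝ)..1, f k θ ≤ 1) ∧
    (∀ k, ∀ᵐ θ : ℝ ∂(volume.restrict (Set.Ioc 0 1)),
      0 < f k θ ∧ f k θ = ‖R.P k θ‖ ^ 2 * f (k + 1) θ) ∧
    ∀ (k : ℕ) (c : ℤ →₀ ℂ), (c.sum fun _ z => z) = 0 →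
      Tendsto (fun n => ∫ θ in (0 : ℝ)..1, ‖trig c θ‖ ^ 2 * R.riesz k n θ) atTop
        (𝓝 (∫ θ in (0 : ℝ)..1, ‖trig c θ‖ ^ 2 * f k θ))

end Vale.Agent.P130.Lebesgue
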