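import Vale.Agent.P130.Lebesgue.Spectral.Defs

/-!
# The spectral module: trigonometric polynomials and the Riesz densities
-/

namespace Vale.Agent.P130.Lebesgue

open MeasureTheory Filter
open scoped Topology

/-- Trigonometric polynomials, by their coefficients. -/
abbrev TP := AddMonoidAlgebra ℂ ℤ

/-- The character `a ↦ e (a θ)` of the integers. -/
noncomputable def echar (θ : ℝ) : Multiplicative ℤ →* ℂ where
  toFun a := e (Multiplicative.toAdd a * θ)
  map_one' := by simp [e]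
  map_mul' a b := by
    simp only [e, toAdd_mul, Int.cast_add, ← Complex.exp_add]
    push_cast
    ring_nf

/-- The value of a trigonometric polynomial. -/
noncomputable def ev (θ : ℝ) : TP →ₐ[ℂ] ℂ := AddMonoidAlgebra.lift ℂ ℂ ℤ (echar θ)

/-- The Riesz products converge, off the origin, to densities that are positive almost everywhere
and satisfy the recursion of the towers. -/
def HasDensities (R : RankOne) : Prop :=
  ∃ f : ℕ → ℝ → ℝ, (∀ k θ, 0 ≤ f k θ) ∧ (∀ k, IntegrableOn (f k) (Set.Ioc 0 1)) ∧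
    (∀ k, ∀ᵐ θ ∂(volume.restrict (Set.Ioc (0 : ℝ) 1)), 0 < f k θ) ∧
    (∀ k, ∀ᵐ θ ∂(volume.restrict (Set.Ioc (0 : ℝ) 1)), f k θ = ‖R.P k θ‖ ^ 2 * f (k + 1) θ) ∧
    ∀ (k : ℕ) (r : TP), ev 0 r = 0 →
      Tendsto (fun n => ∫ θ in (0 : ℝ)..1, ‖ev θ r‖ ^ 2 * R.riesz k n θ) atTop
        (𝓝 (∫ θ in (0 : ℝ)..1, ‖ev θ r‖ ^ 2 * f k θ))

end Vale.Agent.P130.Lebesgue
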