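import Vale.Agent.P130.Lebesgue.Spectral.Approx

/-!
# Trigonometric polynomials of the Koopman operator
-/

namespace Vale.Agent.P130.Lebesgue.Hilb

open MeasureTheory Filter
open scoped Topology ComplexConjugate InnerProductSpace

noncomputable section

variable {X : Type} [MeasurableSpace X] {μ : Measure X} {T : X ≃ᵐ X}

lemma iter_zero (T : X ≃ᵐ X) : iter T 0 = id := rfl

lemma iter_add (T : X ≃ᵐ X) (a b : ℤ) : iter T (a + b) = iter T a ∘ iter T b := by
  funext x
  simp [iter, zpow_add, Equiv.Perm.mul_apply]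

lemma iter_one (T : X ≃ᵐ X) : iter T 1 = T := by
  funext x
  simp [iter]

lemma iter_neg_one (T : X ≃ᵐ X) : iter T (-1) = T.symm := by
  funext x
  simp [iter]

lemma mp_iter (hT : MeasurePreserving T μ μ) (n : ℤ) : MeasurePreserving (iter T n) μ μ := by
  induction n using Int.induction_on with
  | zero => rw [iter_zero]; exact MeasurePreserving.id μ
  | succ i hi => rw [iter_add, iter_one]; exact hi.comp hT
  | pred i hi =>
    rw [sub_eq_add_neg, iter_add, iter_neg_one]
    exact hi.comp (hT.symm T)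

/-- The iterates as isometries. -/
def koop (hT : MeasurePreserving T μ μ) (a : ℤ) : Lp ℂ 2 μ →ₗᵢ[ℂ] Lp ℂ 2 μ :=
  Lp.compMeasurePreservingₗᵢ ℂ (iter T a) (mp_iter hT a)

lemma koop_coe (hT : MeasurePreserving T μ μ) (a : ℤ) (G : Lp ℂ 2 μ) :
    koop hT a G =ᵐ[μ] fun x => G (iter T a x) :=
  Lp.coeFn_compMeasurePreserving G (mp_iter hT a)

lemma koop_toLp (hT : MeasurePreserving T μ μ) (a : ℤ) {G : X → ℂ} (hG : MemLp G 2 μ) :
    koop hT a (hG.toLp G) =ᵐ[μ] fun x => G (iter T a x) :=
  (koop_coe hT a _).trans ((mp_iter hT a).quasiMeasurePreserving.ae_eq_comp hG.coeFn_toLp)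

lemma koop_zero (hT : MeasurePreserving T μ μ) (G : Lp ℂ 2 μ) : koop hT 0 G = G :=
  Lp.ext ((koop_coe hT 0 G).trans (Eventually.of_forall fun x => by simp [iter_zero]))

lemma koop_add (hT : MeasurePreserving T μ μ) (a b : ℤ) (G : Lp ℂ 2 μ) :
    koop hT (a + b) G = koop hT a (koop hT b G) := by
  refine Lp.ext ((koop_coe hT _ G).trans ?_)
  refine EventuallyEq.trans ?_ (koop_coe hT a _).symm
  refine EventuallyEq.trans ?_
    ((mp_iter hT a).quasiMeasurePreserving.ae_eq_comp (koop_coe hT b G)).symm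
  refine Eventually.of_forall fun x => ?_
  rw [add_comm a b, iter_add]
  rfl

/-- The iterates as a representation of the integers. -/
def koopHom (hT : MeasurePreserving T μ μ) : Multiplicative ℤ →* Module.End ℂ (Lp ℂ 2 μ) where
  toFun a := (koop hT (Multiplicative.toAdd a)).toLinearMap
  map_one' := LinearMap.ext fun G => koop_zero hT G
  map_mul' _ _ := LinearMap.ext fun G => koop_add hT _ _ G

/-- A trigonometric polynomial of the operator. -/
def op (hT : MeasurePreserving T μ μ) : TP →ₐ[ℂ] Module.End ℂ (Lp ℂ 2 μ) :=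
  AddMonoidAlgebra.lift ℂ (Module.End ℂ (Lp ℂ 2 μ)) ℤ (koopHom hT)

lemma op_single (hT : MeasurePreserving T μ μ) (a : ℤ) (c : ℂ) (G : Lp ℂ 2 μ) :
    op hT (AddMonoidAlgebra.single a c) G = c • koop hT a G := by
  rw [op, AddMonoidAlgebra.lift_single]
  rfl

lemma op_mul (hT : MeasurePreserving T μ μ) (r s : TP) (G : Lp ℂ 2 μ) :
    op hT (r * s) G = op hT r (op hT s G) := by
  rw [map_mul]
  rfl

lemma tendsto_op (hT : MeasurePreserving T μ μ) (r : TP) {G : ℕ → Lp ℂ 2 μ} {g : Lp ℂ 2 μ}
    (h : Tendsto G atTop (𝓝 g)) : Tendsto (fun i => op hT r (G i)) atTop (𝓝 (op hT r g)) := by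
  induction r using AddMonoidAlgebra.induction_linear with
  | zero => simp
  | single a c =>
    simp only [op_single]
    exact (((koop hT a).continuous.tendsto g).comp h).const_smul c
  | add r s hr hs => simp only [map_add, LinearMap.add_apply]; exact hr.add hs

/-- The integral is invariant. -/
lemma integral_koop (hT : MeasurePreserving T μ μ) (a : ℤ) (G : Lp ℂ 2 μ) :
    ∫ x, koop hT a G x ∂μ = ∫ x, G x ∂μ := by
  rw [integral_congr_ae (koop_coe hT a G),
    ← integral_map (mp_iter hT a).aemeasurable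
      (by rw [(mp_iter hT a).map_eq]; exact Lp.aestronglyMeasurable G), (mp_iter hT a).map_eq]

lemma integral_op [IsFiniteMeasure μ] (hT : MeasurePreserving T μ μ) (r : TP) (G : Lp ℂ 2 μ) :
    ∫ x, op hT r G x ∂μ = ev 0 r * ∫ x, G x ∂μ := by
  have hi : ∀ H : Lp ℂ 2 μ, Integrable H μ := fun H => (Lp.memLp H).integrable one_le_two
  induction r using AddMonoidAlgebra.induction_linear with
  | zero =>
    rw [map_zero, map_zero, LinearMap.zero_apply, zero_mul,
      integral_congr_ae (Lp.coeFn_zero ℂ 2 μ)]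
    simp
  | single a c =>
    rw [op_single, integral_congr_ae (Lp.coeFn_smul c _), ev_single]
    simp [integral_const_mul, integral_koop, e]
  | add r s hr hs =>
    rw [map_add, map_add, LinearMap.add_apply, integral_congr_ae (Lp.coeFn_add _ _), add_mul,
      ← hr, ← hs]
    exact integral_add (hi _) (hi _)

/-- An inner product as an integral. -/
lemma inner_koop (hT : MeasurePreserving T μ μ) (a b : ℤ) {F G : X → ℂ} (hF : MemLp F 2 μ)
    (hG : MemLp G 2 μ) :
    ⟪koop hT a (hF.toLp F), koop hT b (hG.toLp G)⟫_ℂ =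
      ∫ x, conj (F (iter T a x)) * G (iter T b x) ∂μ := by
  rw [L2.inner_def]
  refine integral_congr_ae ?_
  filter_upwards [koop_toLp hT a hF, koop_toLp hT b hG] with x h1 h2
  rw [h1, h2, RCLike.inner_apply, mul_comm]

/-- Trigonometric polynomials by their coefficients. -/
lemma tp_eq_sum (r : TP) : ∃ (s : Finset ℤ) (c : ℤ → ℂ),
    r = ∑ a ∈ s, AddMonoidAlgebra.single a (c a) := by
  classical
  induction r using AddMonoidAlgebra.induction_linear with
  | zero => exact ⟨∅, 0, by simp⟩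
  | single a c => exact ⟨{a}, fun _ => c, by simp⟩
  | add r t hr ht =>
    obtain ⟨s, c, rfl⟩ := hr
    obtain ⟨u, d, rfl⟩ := ht
    refine ⟨s ∪ u, fun a => (if a ∈ s then c a else 0) + (if a ∈ u then d a else 0), ?_⟩
    have key : ∀ (t w : Finset ℤ) (f : ℤ → ℂ), t ⊆ w → ∑ a ∈ t, AddMonoidAlgebra.single a (f a) =
        ∑ a ∈ w, AddMonoidAlgebra.single a (if a ∈ t then f a else 0) := fun t w f h => by
      rw [← Finset.sum_subset h (fun a _ ha => by rw [if_neg ha, AddMonoidAlgebra.single_zero])]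
      exact Finset.sum_congr rfl fun a ha => by rw [if_pos ha]
    simp only [AddMonoidAlgebra.single_add, Finset.sum_add_distrib]
    rw [key s _ c Finset.subset_union_left, key u _ d Finset.subset_union_right]

/-- From limits of the correlations to the squared norm of a polynomial of the operator. -/
theorem tendsto_norm_op (hT : MeasurePreserving T μ μ) {F : X → ℂ} (hF : MemLp F 2 μ) {ν : ℝ}
    {ρ : ℕ → ℝ → ℝ} (hρ : ∀ n, Continuous (ρ n))
    (hcor : ∀ a b : ℤ, Tendsto
      (fun n => ((ν : ℝ) : ℂ) * ∫ θ in (0 : ℝ)..1, (ρ n θ : ℂ) * e ((b - a) * θ)) atTop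
      (𝓝 (∫ x, conj (F (iter T a x)) * F (iter T b x) ∂μ)))
    (r : TP) :
    Tendsto (fun n => ν * ∫ θ in (0 : ℝ)..1, ‖ev θ r‖ ^ 2 * ρ n θ) atTop
      (𝓝 (‖op hT r (hF.toLp F)‖ ^ 2)) := by
  obtain ⟨s, c, hr⟩ := tp_eq_sum r
  rw [← Filter.tendsto_ofReal_iff]
  have hn : ((‖op hT r (hF.toLp F)‖ ^ 2 : ℝ) : ℂ) = ∑ a ∈ s, ∑ b ∈ s, conj (c a) * c b *
      ∫ x, conj (F (iter T a x)) * F (iter T b x) ∂μ := by
    rw [Complex.ofReal_pow]
    refine (inner_self_eq_norm_sq_to_K (𝕜 := ℂ) (op hT r (hF.toLp F))).symm.trans ?_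
    simp only [hr, map_sum, LinearMap.coe_sum, Finset.sum_apply, op_single, sum_inner, inner_sum,
      inner_smul_left, inner_smul_right, inner_koop hT _ _ hF hF]
    simp only [Finset.mul_sum]
    rw [Finset.sum_comm]
    exact Finset.sum_congr rfl fun a _ => Finset.sum_congr rfl fun b _ => by ring
  have hpt : ∀ θ : ℝ, ((‖ev θ r‖ ^ 2 : ℝ) : ℂ) =
      ∑ a ∈ s, ∑ b ∈ s, conj (c a) * c b * e ((b - a) * θ) := fun θ => by
    rw [Complex.ofReal_pow, ← Complex.conj_mul']
    simp only [hr, map_sum, ev_single, Finset.sum_mul, Finset.mul_sum, map_mul]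
    rw [Finset.sum_comm]
    refine Finset.sum_congr rfl fun a _ => Finset.sum_congr rfl fun b _ => ?_
    have : e ((b - a) * θ) = e (b * θ) * conj (e (a * θ)) := by
      simp only [e, ← Complex.exp_conj, ← Complex.exp_add, map_mul, Complex.conj_ofReal,
        Complex.conj_I]
      push_cast
      ring_nf
    rw [this]
    ring
  refine (Tendsto.congr ?_ (hn.symm ▸ tendsto_finsetSum s fun a _ => tendsto_finsetSum s
    fun b _ => (hcor a b).const_mul (conj (c a) * c b)) : _)
  intro n
  rw [Complex.ofReal_mul, ← intervalIntegral.integral_ofReal]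
  have hint : ∀ a b : ℤ, IntervalIntegrable
      (fun θ : ℝ => conj (c a) * c b * ((ρ n θ : ℂ) * e ((b - a) * θ))) volume 0 1 := fun a b =>
    (Continuous.intervalIntegrable (by
      have := hρ n
      simp only [e]
      fun_prop) _ _)
  rw [show (fun θ : ℝ => ((‖ev θ r‖ ^ 2 * ρ n θ : ℝ) : ℂ)) = fun θ => ∑ a ∈ s, ∑ b ∈ s,
      conj (c a) * c b * ((ρ n θ : ℂ) * e ((b - a) * θ)) by
    funext θ
    rw [Complex.ofReal_mul, hpt, Finset.sum_mul]
    exact Finset.sum_congr rfl fun a _ => by
      rw [Finset.sum_mul]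
      exact Finset.sum_congr rfl fun b _ => by ring,
    intervalIntegral.integral_finsetSum fun a _ => Continuous.intervalIntegrable (by
      have := hρ n
      simp only [e]
      fun_prop) _ _,
    Finset.mul_sum]
  refine Finset.sum_congr rfl fun a _ => ?_
  rw [intervalIntegral.integral_finsetSum fun b _ => hint a b, Finset.mul_sum]
  refine Finset.sum_congr rfl fun b _ => ?_
  rw [intervalIntegral.integral_const_mul]
  ring

end

end Vale.Agent.P130.Lebesgue.Hilb
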