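import Vale.Agent.P130.Lebesgue.Spectral.Stage

/-!
# The Riesz products of flat stages converge to positive densities
-/

namespace Vale.Agent.P130.Lebesgue

namespace Spectral

open MeasureTheory Filter Finset
open scoped ComplexConjugate Topology ENNReal

section general

variable (R : RankOne)

theorem h_pos (k : ℕ) : 0 < R.h k := by
  induction k with
  | zero => exact Nat.one_pos
  | succ k ih =>
    have := R.two_le k
    rw [RankOne.h]
    positivity

theorem pos_succ (k j : ℕ) : R.pos k (j + 1) = R.pos k j + (R.h k + R.a k j) := by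
  rw [RankOne.pos, RankOne.pos, sum_range_succ]
  ring

theorem pos_add_le {k j j' : ℕ} (hj : j < j') : R.pos k j + R.h k ≤ R.pos k j' := by
  have hm : Monotone (R.pos k) := monotone_nat_of_le_succ fun i => by rw [pos_succ]; omega
  refine le_trans ?_ (hm (Nat.succ_le_of_lt hj))
  rw [pos_succ]; omega

theorem pos_card (k : ℕ) : R.pos k (R.p k) = R.h (k + 1) := rfl

theorem riesz_repr {k n : ℕ} (hkn : k ≤ n) :
    ∃ F : Finset ℕ, (∀ m ∈ F, m < R.h n) ∧ F.Nonempty ∧ ∀ θ, R.riesz k n θ =
      ‖∑ m ∈ F, ((Real.sqrt F.card : ℝ) : ℂ)⁻¹ * e (m * θ)‖ ^ 2 := by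
  induction n, hkn using Nat.le_induction with
  | base =>
    exact ⟨{0}, fun m hm => by rw [mem_singleton] at hm; exact hm ▸ h_pos R k,
      singleton_nonempty 0, fun θ => by simp [RankOne.riesz]⟩
  | succ n hkn ih =>
    obtain ⟨F, hF, hne, hr⟩ := ih
    have hinj : Set.InjOn (fun x : ℕ × ℕ => x.1 + R.pos n x.2)
        ↑(F ×ˢ range (R.p n)) := by
      rintro ⟨a, j⟩ ha ⟨b, j'⟩ hb e
      rw [coe_product, Set.mem_prod] at ha hb
      simp only at e
      rcases lt_trichotomy j j' with h | h | h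
      · have := pos_add_le R (k := n) h; have := hF a ha.1; omega
      · subst h; exact Prod.ext (by simpa using e) rfl
      · have := pos_add_le R (k := n) h; have := hF b hb.1; omega
    refine ⟨(F ×ˢ range (R.p n)).image fun x => x.1 + R.pos n x.2, ?_, ?_, fun θ => ?_⟩
    · intro m hm
      obtain ⟨⟨a, j⟩, hx, rfl⟩ := mem_image.1 hm
      rw [mem_product, mem_range] at hx
      rw [← pos_card R n]
      have := pos_add_le R (k := n) hx.2
      have := hF a hx.1
      omega
    · exact (hne.product (nonempty_range_iff.2 (by have := R.two_le n; omega))).image _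
    rw [RankOne.riesz, prod_Ico_succ_top hkn, ← RankOne.riesz, hr, RankOne.P, ← mul_pow,
      ← norm_mul, card_image_of_injOn hinj, sum_image hinj, card_product, card_range, Nat.cast_mul,
      Real.sqrt_mul (Nat.cast_nonneg _)]
    congr 2
    rw [mul_sum, mul_sum, sum_product_right]
    refine sum_congr rfl fun j _ => ?_
    rw [sum_mul]
    refine sum_congr rfl fun a _ => ?_
    push_cast
    rw [add_mul, e_add, mul_inv]
    ring

theorem riesz_nonneg (k n : ℕ) (θ : ℝ) : 0 ≤ R.riesz k n θ :=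
  prod_nonneg fun _ _ => sq_nonneg _

theorem continuous_riesz (k n : ℕ) : Continuous (R.riesz k n) :=
  continuous_finsetProd _ fun i _ => by unfold RankOne.P; fun_prop

theorem integral_riesz {k n : ℕ} (hkn : k ≤ n) : ∫ θ in (0 : ℝ)..1, R.riesz k n θ = 1 := by
  obtain ⟨F, -, hne, hr⟩ := riesz_repr R hkn
  have hF0 : (0 : ℝ) < F.card := by exact_mod_cast hne.card_pos
  have := integral_normSq_sum F (fun _ => ((Real.sqrt F.card : ℝ) : ℂ)⁻¹) (fun m => (m : ℤ))
    Nat.cast_injective.injOn
  simp only [Int.cast_natCast] at this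
  simp only [hr, this, sum_const, nsmul_eq_mul, norm_inv, Complex.norm_real, Real.norm_eq_abs,
    abs_of_nonneg (Real.sqrt_nonneg _), inv_pow, Real.sq_sqrt hF0.le]
  exact mul_inv_cancel₀ hF0.ne'

theorem ae_P_ne_zero (k : ℕ) :
    ∀ᵐ θ ∂(volume.restrict (Set.Ioc (0 : ℝ) 1)), R.P k θ ≠ 0 := by
  set q : Polynomial ℂ := ∑ j ∈ range (R.p k), Polynomial.X ^ R.pos k j with hq
  have hq0 : q ≠ 0 := by
    intro h
    have h1 := congrArg (fun r => Polynomial.coeff r (R.pos k 0)) h
    simp only [hq, Polynomial.finsetSum_coeff, Polynomial.coeff_X_pow, Polynomial.coeff_zero] at h1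
    have hp : 0 ∈ range (R.p k) := mem_range.2 (by have := R.two_le k; omega)
    rw [sum_eq_single_of_mem 0 hp fun j _ hj => if_neg fun e => by
      have := pos_add_le R (k := k) (Nat.pos_of_ne_zero hj); have := h_pos R k; omega] at h1
    simp at h1
  have hfin : {θ ∈ Set.Ioc (0 : ℝ) 1 | R.P k θ = 0}.Finite := by
    refine Set.Finite.of_finite_image (f := e)
      ((Polynomial.finite_setOfPred_isRoot hq0).subset ?_) ?_
    · rintro _ ⟨θ, ⟨-, hθ⟩, rfl⟩
      have hP : R.P k θ = (Real.sqrt (R.p k) : ℂ)⁻¹ * q.eval (e θ) := by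
        rw [RankOne.P, hq, Polynomial.eval_finsetSum]
        congr 1
        refine sum_congr rfl fun j _ => ?_
        rw [Polynomial.eval_pow, Polynomial.eval_X, e, e, ← Complex.exp_nat_mul]
        congr 1
        push_cast
        ring
      rw [hP, mul_eq_zero] at hθ
      refine hθ.resolve_left (inv_ne_zero ?_)
      rw [Complex.ofReal_ne_zero]
      have := R.two_le k
      positivity
    · rintro x ⟨hx, -⟩ y ⟨hy, -⟩ hxy
      rw [e, e, Complex.exp_eq_exp_iff_exists_int] at hxy
      obtain ⟨n, hn⟩ := hxy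
      have h2 : 2 * Real.pi * x = 2 * Real.pi * y + n * (2 * Real.pi) := by
        have := congrArg Complex.im hn
        simpa using this
      have h3 : x = y + n := by
        have := Real.pi_pos
        nlinarith
      have : n = 0 := by
        have a1 : (n : ℝ) < 1 := by linarith [hx.2, hy.1]
        have a2 : (-1 : ℝ) < n := by linarith [hx.1, hy.2]
        have b1 : n < 1 := by exact_mod_cast a1
        have b2 : -1 < n := by exact_mod_cast a2
        omega
      simpa [this] using h3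
  rw [ae_restrict_iff' measurableSet_Ioc]
  refine measure_mono_null (fun θ hθ => ?_) (hfin.measure_zero volume)
  simp only [Set.mem_compl_iff, Set.mem_ofPred_eq, Classical.not_imp, not_not] at hθ
  exact hθ

end general

/-- The margin of stage `n`. -/
noncomputable def marg (n : ℕ) : ℝ := (1 / 2) ^ n / 4

theorem marg_pos (n : ℕ) : 0 < marg n := by unfold marg; positivity

theorem marg_le (n : ℕ) : marg n ≤ 1 / 4 := by
  unfold marg
  gcongr
  exact pow_le_one₀ (by norm_num) (by norm_num)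

theorem marg_anti {m n : ℕ} (h : m ≤ n) : marg n ≤ marg m := by
  unfold marg
  gcongr ?_ / 4
  exact pow_le_pow_of_le_one (by norm_num) (by norm_num) h

/-- The inner interval of stage `n`. -/
def inner (n : ℕ) : Set ℝ := Set.Ioc (2 * marg n) (1 - 2 * marg n)

theorem inner_subset (n : ℕ) : inner n ⊆ Set.Ioc 0 1 :=
  Set.Ioc_subset_Ioc (by linarith [marg_pos n]) (by linarith [marg_pos n])

theorem measurableSet_inner (n : ℕ) : MeasurableSet (inner n) := measurableSet_Ioc

theorem inner_mono {m n : ℕ} (h : m ≤ n) : inner m ⊆ inner n :=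
  Set.Ioc_subset_Ioc (by linarith [marg_anti h]) (by linarith [marg_anti h])

/-- Cutting and spacer data with stage errors summable against `2 ^ n`. -/
theorem exists_data (hF : FlatSpacerGoal) :
    ∃ (R : RankOne) (C : ℝ),
      Summable (fun k => ((∑ j ∈ range (R.p k), R.a k j : ℕ) : ℝ) / (R.p k * R.h k : ℕ)) ∧
      0 ≤ C ∧ ∀ k n, k ≤ n →
        ∫ θ in (2 * marg n)..(1 - 2 * marg n), R.riesz k n θ * (‖R.P n θ‖ - 1) ^ 2 ≤
          C * (1 / 4) ^ n := by
  choose S₀ hS₀ using fun n : ℕ => hF (marg n) ((1 / 4) ^ n) (marg_pos n) (by positivity)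
  set S : ℕ → ℕ := fun n => max (S₀ n) 4 with hSdef
  choose p hp s hs hflat using fun n : ℕ => hS₀ n (4 ^ (n + 2) * (S (n + 1) + 1) ^ 2)
  have hS4 : ∀ n, 4 ≤ S n := fun n => le_max_right _ _
  have hsS : ∀ n j, j < p n → s n j < S n := fun n j hj => (hs n j hj).trans_le (le_max_left _ _)
  have hp2 : ∀ n, 2 ≤ p n := fun n => le_trans (le_trans (by norm_num)
    (Nat.mul_le_mul (Nat.pow_le_pow_right (by norm_num : 1 ≤ 4) (Nat.le_add_left 2 n))
      (Nat.one_le_pow _ _ (Nat.succ_pos _)))) (hp n)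
  let R : RankOne :=
    { p := p
      a := fun n j => if j + 1 < p n then S n + s n (j + 1) - s n j else 0
      two_le := hp2 }
  have ha : ∀ n j, R.a n j ≤ 2 * S n := fun n j => by
    show (if j + 1 < p n then S n + s n (j + 1) - s n j else 0) ≤ _
    split_ifs with h
    · have := hsS n (j + 1) h; omega
    · exact Nat.zero_le _
  have hh : ∀ n, 1 ≤ n → 4 ^ (n + 1) * (S n + 1) ^ 2 ≤ R.h n := fun n hn => by
    obtain ⟨m, rfl⟩ : ∃ m, n = m + 1 := ⟨n - 1, by omega⟩
    refine (hp m).trans (le_trans ?_ (Nat.le_add_right _ _))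
    exact Nat.le_mul_of_pos_right _ (h_pos R m)
  have hratio : ∀ n, (S n : ℝ) / R.h n ≤ (S 0 + 1) * (1 / 4) ^ n := fun n => by
    rcases Nat.eq_zero_or_pos n with rfl | hn
    · simp [RankOne.h]
    have h1 : ((4 ^ (n + 1) * (S n + 1) ^ 2 : ℕ) : ℝ) ≤ R.h n := by exact_mod_cast hh n hn
    push_cast at h1
    have h4 : (S n : ℝ) ≤ (S n + 1) ^ 2 := by nlinarith [Nat.cast_nonneg (α := ℝ) (S n)]
    have h5 : (1 : ℝ) ≤ S 0 + 1 := by simp
    rw [div_le_iff₀ (by exact_mod_cast h_pos R n), one_div_pow]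
    calc (S n : ℝ) ≤ 1 * (1 / (4 : ℝ) ^ n) * (4 ^ (n + 1) * (S n + 1) ^ 2) := by
          field_simp
          rw [pow_succ]
          nlinarith [pow_pos (by norm_num : (0 : ℝ) < 4) n]
      _ ≤ _ := by gcongr
  refine ⟨R, 50 * (2 + 2 * (2 * Real.pi) ^ 2 * (S 0 + 1)), ?_, by positivity, ?_⟩
  · refine Summable.of_nonneg_of_le (fun k => by positivity) (fun k => ?_)
      (((summable_geometric_of_lt_one (by norm_num) (by norm_num : (1 / 4 : ℝ) < 1)).mul_left
        (2 * ((S 0 : ℝ) + 1))))
    have e1 : ((∑ j ∈ range (R.p k), R.a k j : ℕ) : ℝ) ≤ (R.p k : ℝ) * (2 * S k) := by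
      have : ∑ j ∈ range (R.p k), R.a k j ≤ R.p k * (2 * S k) :=
        (sum_le_card_nsmul _ _ _ fun j _ => ha k j).trans (by rw [card_range, smul_eq_mul])
      exact_mod_cast this
    have hpk : (0 : ℝ) < R.p k := by exact_mod_cast lt_of_lt_of_le two_pos (R.two_le k)
    refine (div_le_div_of_nonneg_right e1 (by positivity)).trans ?_
    rw [Nat.cast_mul, mul_div_mul_left _ _ hpk.ne', mul_div_assoc, mul_assoc 2]
    exact mul_le_mul_of_nonneg_left (hratio k) two_pos.le
  intro k n hkn
  obtain ⟨F, hFlt, hne, hr⟩ := riesz_repr R hkn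
  have hF0 : (0 : ℝ) < F.card := by exact_mod_cast hne.card_pos
  have hc : ∑ m ∈ F, ‖((Real.sqrt F.card : ℝ) : ℂ)⁻¹‖ ^ 2 = 1 := by
    simp only [sum_const, nsmul_eq_mul, norm_inv, Complex.norm_real, Real.norm_eq_abs,
      abs_of_nonneg (Real.sqrt_nonneg _), inv_pow, Real.sq_sqrt hF0.le]
    exact mul_inv_cancel₀ hF0.ne'
  have hδH : 1 / ((R.h n + S n : ℕ) : ℝ) ≤ marg n := by
    rcases Nat.eq_zero_or_pos n with rfl | hn
    · have : (4 : ℝ) ≤ S 0 := by exact_mod_cast hS4 0
      have : ((R.h 0 + S 0 : ℕ) : ℝ) ≥ 4 := by push_cast [RankOne.h]; linarith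
      rw [marg, pow_zero, div_le_div_iff₀ (by linarith) (by norm_num)]
      linarith
    have h1 : 2 ^ n * 4 ≤ R.h n + S n := by
      have h2 : 2 ^ n ≤ 4 ^ n := Nat.pow_le_pow_left (by norm_num) n
      have h3 := hh n hn
      have : 1 ≤ (S n + 1) ^ 2 := Nat.one_le_pow _ _ (Nat.succ_pos _)
      rw [pow_succ] at h3
      nlinarith
    rw [marg, one_div_pow, div_div]
    exact one_div_le_one_div_of_le (by positivity) (by exact_mod_cast h1)
  have hst := flat_stage F (fun _ => ((Real.sqrt F.card : ℝ) : ℂ)⁻¹) (H := R.h n + S n) (p := p n)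
    (Nat.le_add_right _ _) (h_pos R n) hFlt hc
    (lt_of_lt_of_le two_pos (hp2 n)) (s n) (hsS n) hδH (marg_le n) (by positivity) (hflat n)
  have hpos : ∀ j < p n, R.pos n j + s n 0 = j * (R.h n + S n) + s n j := by
    intro j
    induction j with
    | zero => intro _; simp [RankOne.pos]
    | succ j ih =>
      intro hj
      have := ih (by omega)
      have ha' : R.a n j = S n + s n (j + 1) - s n j := if_pos hj
      rw [pos_succ, ha']
      have := hsS n j (by omega)
      rw [Nat.succ_mul]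
      omega
  have hP : ∀ θ, ‖R.P n θ‖ =
      ‖∑ j ∈ range (p n), e (((j * (R.h n + S n) + s n j : ℕ) : ℝ) * θ)‖ / Real.sqrt (p n) := by
    intro θ
    have e1 : ∑ j ∈ range (p n), e (((j * (R.h n + S n) + s n j : ℕ) : ℝ) * θ) =
        e ((s n 0 : ℝ) * θ) * ∑ j ∈ range (p n), e (R.pos n j * θ) := by
      rw [mul_sum]
      refine sum_congr rfl fun j hj => ?_
      rw [← hpos j (mem_range.1 hj), ← e_add]
      push_cast
      ring_nf
    rw [e1, norm_mul, norm_e, one_mul, RankOne.P, norm_mul, norm_inv, Complex.norm_real,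
      Real.norm_eq_abs, abs_of_nonneg (Real.sqrt_nonneg _), inv_mul_eq_div]
  simp only [hr, hP]
  refine hst.trans ?_
  rw [stageErr, mul_assoc 50]
  refine mul_le_mul_of_nonneg_left ?_ (by norm_num)
  rw [add_mul, mul_assoc _ ((S 0 : ℝ) + 1), mul_div_assoc]
  refine add_le_add le_rfl (mul_le_mul_of_nonneg_left ?_ (by positivity))
  have hS0 : (0 : ℝ) ≤ S n := Nat.cast_nonneg _
  have hhn : (0 : ℝ) < R.h n := by exact_mod_cast h_pos R n
  push_cast
  rcases Nat.eq_zero_or_pos n with rfl | hn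
  · rw [pow_zero, mul_one, div_le_iff₀ (by positivity)]
    calc (S 0 : ℝ) ^ 3 = S 0 * (S 0 : ℝ) ^ 2 := by ring
      _ ≤ _ := mul_le_mul (by linarith) (pow_le_pow_left₀ hS0 (by linarith) 2) (by positivity)
        (by positivity)
  have h1 : ((4 ^ (n + 1) * (S n + 1) ^ 2 : ℕ) : ℝ) ≤ R.h n := by exact_mod_cast hh n hn
  push_cast at h1
  calc (S n : ℝ) ^ 3 / (R.h n + S n) ^ 2 ≤ (S n : ℝ) ^ 3 / (4 ^ (n + 1) * (S n + 1) ^ 2) ^ 2 := by
        gcongr
        linarith
    _ ≤ 1 * (1 / 4) ^ n := by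
        rw [one_mul, div_le_iff₀ (by positivity), one_div_pow, mul_pow, ← mul_assoc,
          one_div_mul_eq_div, pow_succ (4 : ℝ), mul_pow, sq ((4 : ℝ) ^ n),
          show (4 : ℝ) ^ n * 4 ^ n * 4 ^ 2 / 4 ^ n = 4 ^ n * 4 ^ 2 by field_simp]
        refine le_trans ?_ (le_mul_of_one_le_left (by positivity)
          (by nlinarith [one_le_pow₀ (by norm_num : (1 : ℝ) ≤ 4) (n := n)]))
        rw [← pow_mul]
        exact (pow_le_pow_left₀ hS0 (by linarith) 3).trans
          (pow_le_pow_right₀ (by linarith) (by norm_num))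
    _ ≤ _ := by gcongr; simp

section limit

variable (R : RankOne)

/-- The spectral density of stage `k`. -/
noncomputable def dens (k : ℕ) (θ : ℝ) : ℝ :=
  (liminf (fun n => ENNReal.ofReal (R.riesz k n θ)) atTop).toReal

theorem measurable_liminf_riesz (k : ℕ) :
    Measurable fun θ => liminf (fun n => ENNReal.ofReal (R.riesz k n θ)) atTop :=
  Measurable.liminf fun n => (continuous_riesz R k n).measurable.ennreal_ofReal

theorem lintegral_riesz {k n : ℕ} (hkn : k ≤ n) :
    ∫⁻ θ in Set.Ioc (0 : ℝ) 1, ENNReal.ofReal (R.riesz k n θ) = 1 := by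
  rw [← ofReal_integral_eq_lintegral_ofReal ((continuous_riesz R k n).integrableOn_Ioc)
    (Eventually.of_forall (riesz_nonneg R k n)), ← intervalIntegral.integral_of_le zero_le_one,
    integral_riesz R hkn, ENNReal.ofReal_one]

theorem lintegral_dens (k : ℕ) :
    ∫⁻ θ in Set.Ioc (0 : ℝ) 1, ENNReal.ofReal (dens R k θ) ≤ 1 := by
  refine (lintegral_mono fun θ => ENNReal.ofReal_toReal_le).trans ?_
  refine (lintegral_liminf_le fun n => (continuous_riesz R k n).measurable.ennreal_ofReal).trans ?_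
  refine Filter.liminf_le_of_frequently_le ?_
  exact (eventually_ge_atTop k).frequently.mono fun n hn => (lintegral_riesz R hn).le

theorem dens_props (k : ℕ) : Measurable (dens R k) ∧ (∀ θ, 0 ≤ dens R k θ) ∧
    IntegrableOn (dens R k) (Set.Ioc 0 1) ∧ ∫ θ in (0 : ℝ)..1, dens R k θ ≤ 1 := by
  have hm : Measurable (dens R k) := (measurable_liminf_riesz R k).ennreal_toReal
  have h0 : ∀ θ, 0 ≤ dens R k θ := fun θ => ENNReal.toReal_nonneg
  have hi : IntegrableOn (dens R k) (Set.Ioc 0 1) := by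
    refine ⟨hm.aestronglyMeasurable, ?_⟩
    rw [hasFiniteIntegral_iff_ofReal (Eventually.of_forall h0)]
    exact (lintegral_dens R k).trans_lt ENNReal.one_lt_top
  refine ⟨hm, h0, hi, ?_⟩
  rw [intervalIntegral.integral_of_le zero_le_one,
    integral_eq_lintegral_of_nonneg_ae (Eventually.of_forall h0) hm.aestronglyMeasurable]
  exact ENNReal.toReal_le_of_le_ofReal zero_le_one (by simpa using lintegral_dens R k)

/-- Where the logarithms of the factors are summable, the products tend to the density. -/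
theorem tendsto_riesz {θ : ℝ} (hne : ∀ i, R.P i θ ≠ 0)
    (hsum : Summable fun i => |‖R.P i θ‖ ^ 2 - 1|) (k : ℕ) :
    Tendsto (fun n => R.riesz k n θ) atTop (𝓝 (dens R k θ)) ∧ 0 < dens R k θ := by
  have hlog : Summable fun i => Real.log (‖R.P i θ‖ ^ 2) := by
    simpa using Real.summable_log_one_add_of_summable hsum.of_abs
  have hk : Summable fun i => Real.log (‖R.P (k + i) θ‖ ^ 2) :=
    hlog.comp_injective (add_right_injective k)
  set L := Real.exp (∑' i, Real.log (‖R.P (k + i) θ‖ ^ 2)) with hL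
  have ht : Tendsto (fun n => R.riesz k n θ) atTop (𝓝 L) := by
    refine (((Real.continuous_exp.tendsto _).comp
      (hk.hasSum.tendsto_sum_nat.comp (tendsto_sub_atTop_nat k)))).congr fun n => ?_
    simp only [Function.comp_apply, RankOne.riesz, prod_Ico_eq_prod_range, Real.exp_sum]
    exact prod_congr rfl fun i _ => Real.exp_log (by have := hne (k + i); positivity)
  have he : dens R k θ = L := by
    have h1 : liminf (fun n => ENNReal.ofReal (R.riesz k n θ)) atTop = ENNReal.ofReal L :=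
      ((ENNReal.continuous_ofReal.tendsto L).comp ht).liminf_eq
    rw [dens, h1, ENNReal.toReal_ofReal (Real.exp_pos _).le]
  rw [he]
  exact ⟨ht, Real.exp_pos _⟩

variable {C : ℝ} (hC : ∀ k n, k ≤ n →
  ∫ θ in (2 * marg n)..(1 - 2 * marg n), R.riesz k n θ * (‖R.P n θ‖ - 1) ^ 2 ≤ C * (1 / 4) ^ n)

/-- The bound on the change of the product at stage `n` on the inner intervals. -/
noncomputable def stepBound (C : ℝ) (n : ℕ) : ℝ := (C + 4) / 2 * (1 / 2) ^ n

theorem summable_stepBound : Summable (stepBound C) :=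
  (summable_geometric_of_lt_one (by norm_num) (by norm_num)).mul_left _

include hC

theorem step_le {k m n : ℕ} (hkn : k ≤ n) (hmn : m ≤ n) :
    ∫⁻ θ in inner m, ENNReal.ofReal |R.riesz k (n + 1) θ - R.riesz k n θ| ≤
      ENNReal.ofReal (stepBound C n) := by
  refine (lintegral_mono_set (inner_mono hmn)).trans ?_
  have hsucc : ∀ θ, R.riesz k (n + 1) θ = R.riesz k n θ * ‖R.P n θ‖ ^ 2 := fun θ => by
    rw [RankOne.riesz, prod_Ico_succ_top hkn]; rfl
  have cQ := continuous_riesz R k n
  have cP : Continuous (R.P n) := by unfold RankOne.P; fun_prop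
  have c1 : Continuous (R.riesz k (n + 1)) := continuous_riesz R k (n + 1)
  have hab : 2 * marg n ≤ 1 - 2 * marg n := by linarith [marg_le n]
  set t : ℝ := 2 ^ n with ht
  have ht0 : 0 < t := by positivity
  have hpt : ∀ θ, |R.riesz k (n + 1) θ - R.riesz k n θ| ≤
      (t * (R.riesz k n θ * (‖R.P n θ‖ - 1) ^ 2) +
        (R.riesz k (n + 1) θ * 2 + R.riesz k n θ * 2) / t) / 2 := by
    intro θ
    rw [hsucc]
    have hQ := riesz_nonneg R k n θ
    have hx := norm_nonneg (R.P n θ)
    generalize R.riesz k n θ = Q at *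
    generalize ‖R.P n θ‖ = x at *
    rw [show Q * x ^ 2 - Q = Q * ((x - 1) * (x + 1)) by ring, abs_mul, abs_of_nonneg hQ,
      show (t * (Q * (x - 1) ^ 2) + (Q * x ^ 2 * 2 + Q * 2) / t) / 2 =
        Q * ((t * (x - 1) ^ 2 + (x ^ 2 * 2 + 2) / t) / 2) by ring]
    refine mul_le_mul_of_nonneg_left ?_ hQ
    have h2 : (x + 1) ^ 2 ≤ x ^ 2 * 2 + 2 := by nlinarith [sq_nonneg (x - 1)]
    have h4 : 2 * |(x - 1) * (x + 1)| ≤ t * (x - 1) ^ 2 + (x + 1) ^ 2 / t := by
      rw [abs_mul, abs_of_nonneg (by linarith : 0 ≤ x + 1), ← sq_abs (x - 1), ← sub_nonneg,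
        show t * |x - 1| ^ 2 + (x + 1) ^ 2 / t - 2 * (|x - 1| * (x + 1)) =
          (t * |x - 1| - (x + 1)) ^ 2 / t by field_simp; ring]
      positivity
    have h5 : (x + 1) ^ 2 / t ≤ (x ^ 2 * 2 + 2) / t := by gcongr
    linarith
  have cL : Continuous fun θ => |R.riesz k (n + 1) θ - R.riesz k n θ| :=
    ((continuous_riesz R k (n + 1)).sub cQ).abs
  rw [inner, ← ofReal_integral_eq_lintegral_ofReal cL.integrableOn_Ioc
    (Eventually.of_forall fun θ => abs_nonneg _), ← intervalIntegral.integral_of_le hab]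
  refine ENNReal.ofReal_le_ofReal ((intervalIntegral.integral_mono_on hab (cL.intervalIntegrable _ _)
    (Continuous.intervalIntegrable (by fun_prop) _ _) fun θ _ => hpt θ).trans ?_)
  rw [intervalIntegral.integral_div, intervalIntegral.integral_add
    (Continuous.intervalIntegrable (by fun_prop) _ _) (Continuous.intervalIntegrable (by fun_prop) _ _),
    intervalIntegral.integral_const_mul, intervalIntegral.integral_div,
    intervalIntegral.integral_add (Continuous.intervalIntegrable (by fun_prop) _ _)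
      (Continuous.intervalIntegrable (by fun_prop) _ _),
    intervalIntegral.integral_mul_const, intervalIntegral.integral_mul_const]
  have hone : ∀ q, k ≤ q → ∫ θ in (2 * marg n)..(1 - 2 * marg n), R.riesz k q θ ≤ 1 := fun q hq =>
    (intervalIntegral.integral_mono_interval (by linarith [marg_pos n]) hab
      (by linarith [marg_pos n]) (Eventually.of_forall (riesz_nonneg R k q))
      ((continuous_riesz R k q).intervalIntegrable 0 1)).trans (integral_riesz R hq).le
  have h1 := mul_le_mul_of_nonneg_left (hC k n hkn) ht0.le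
  have h2 : (t : ℝ) * (C * (1 / 4) ^ n) = C * (1 / 2) ^ n := by
    rw [ht, mul_left_comm, ← mul_pow]; norm_num
  have h3 : (1 / 2 : ℝ) ^ n = 1 / t := by rw [ht, one_div_pow]
  have h4 : ((∫ θ in (2 * marg n)..(1 - 2 * marg n), R.riesz k (n + 1) θ) * 2 +
      (∫ θ in (2 * marg n)..(1 - 2 * marg n), R.riesz k n θ) * 2) / t ≤ 4 / t := by
    gcongr
    linarith [hone n hkn, hone (n + 1) (hkn.trans n.le_succ)]
  rw [stepBound, show (C + 4) / 2 * (1 / 2 : ℝ) ^ n = (C * (1 / 2) ^ n + 4 / t) / 2 by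
    rw [h3]; ring]
  linarith [h1, h2 ▸ h1]

/-- Almost every point of the interval is regular. -/
theorem ae_summable : ∀ᵐ θ ∂(volume.restrict (Set.Ioc (0 : ℝ) 1)),
    (∀ i, R.P i θ ≠ 0) ∧ Summable fun i => |‖R.P i θ‖ ^ 2 - 1| := by
  refine (ae_all_iff.2 fun i => ae_P_ne_zero R i).and ?_
  have hm : ∀ m, ∀ᵐ θ ∂(volume.restrict (inner m)), Summable fun i => |‖R.P i θ‖ ^ 2 - 1| := by
    intro m
    have hmeas : ∀ i, Measurable fun θ => ENNReal.ofReal |‖R.P (i + m) θ‖ ^ 2 - 1| := fun i => by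
      have : Continuous (R.P (i + m)) := by unfold RankOne.P; fun_prop
      exact (Continuous.measurable (by fun_prop)).ennreal_ofReal
    have hfin : ∫⁻ θ in inner m, ∑' i, ENNReal.ofReal |‖R.P (i + m) θ‖ ^ 2 - 1| ≠ ⊤ := by
      rw [lintegral_tsum fun i => (hmeas i).aemeasurable]
      refine ne_top_of_le_ne_top ?_ (ENNReal.tsum_le_tsum fun i =>
        (le_of_eq ?_).trans (step_le R hC (k := i + m) le_rfl (Nat.le_add_left m i)))
      · exact ((summable_stepBound (C := C)).comp_injective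
          (add_left_injective m)).tsum_ofReal_ne_top
      · refine lintegral_congr fun θ => ?_
        simp [RankOne.riesz]
    filter_upwards [ae_lt_top (Measurable.tsum hmeas) hfin] with θ hθ
    refine (summable_nat_add_iff m).1 ?_
    exact (ENNReal.summable_toReal hθ.ne).congr fun i => ENNReal.toReal_ofReal (abs_nonneg _)
  have hsub : Set.Ioo (0 : ℝ) 1 ⊆ ⋃ m, inner m := by
    intro θ hθ
    obtain ⟨m, hm⟩ := exists_pow_lt_of_lt_one (show 0 < min θ (1 - θ) by
      exact lt_min hθ.1 (by linarith [hθ.2])) (show (1 / 2 : ℝ) < 1 by norm_num)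
    refine Set.mem_iUnion.2 ⟨m, ?_, ?_⟩ <;>
      (rw [marg]; have := min_le_left θ (1 - θ); have := min_le_right θ (1 - θ);
       have : (0 : ℝ) < (1 / 2) ^ m := (by positivity); linarith)
  rw [← Measure.restrict_congr_set Ioo_ae_eq_Ioc]
  exact ae_restrict_of_ae_restrict_of_subset hsub ((ae_restrict_iUnion_iff _ _).2 hm)

theorem l1_inner {k m n : ℕ} (hkn : k ≤ n) (hmn : m ≤ n) :
    ∫⁻ θ in inner m, ENNReal.ofReal |R.riesz k n θ - dens R k θ| ≤
      ENNReal.ofReal (∑' i, stepBound C (i + n)) := by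
  have hae := ae_restrict_of_ae_restrict_of_subset (inner_subset m) (ae_summable R hC)
  have hlim : (fun θ => ENNReal.ofReal |R.riesz k n θ - dens R k θ|) =ᵐ[volume.restrict (inner m)]
      fun θ => liminf (fun N => ENNReal.ofReal |R.riesz k n θ - R.riesz k N θ|) atTop := by
    filter_upwards [hae] with θ hθ
    exact (((ENNReal.continuous_ofReal.tendsto _).comp
      ((tendsto_const_nhds.sub (tendsto_riesz R hθ.1 hθ.2 k).1).abs)).liminf_eq).symm
  rw [lintegral_congr_ae hlim]
  refine (lintegral_liminf_le fun N => (((continuous_riesz R k n).sub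
    (continuous_riesz R k N)).abs.measurable.ennreal_ofReal)).trans ?_
  refine Filter.liminf_le_of_frequently_le ((eventually_ge_atTop n).frequently.mono fun N hN => ?_)
  have hpt : ∀ θ, ENNReal.ofReal |R.riesz k n θ - R.riesz k N θ| ≤
      ∑ i ∈ Ico n N, ENNReal.ofReal |R.riesz k (i + 1) θ - R.riesz k i θ| := fun θ => by
    rw [← ENNReal.ofReal_sum_of_nonneg fun i _ => abs_nonneg _, abs_sub_comm]
    refine ENNReal.ofReal_le_ofReal ?_
    rw [← sum_Ico_sub (fun i => R.riesz k i θ) hN]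
    exact abs_sum_le_sum_abs _ _
  refine (lintegral_mono hpt).trans ?_
  have hmm : ∀ i, Measurable fun θ => ENNReal.ofReal |R.riesz k (i + 1) θ - R.riesz k i θ| :=
    fun i => ((continuous_riesz R k (i + 1)).sub
      (continuous_riesz R k i)).abs.measurable.ennreal_ofReal
  rw [lintegral_finsetSum _ fun i _ => hmm i]
  refine (sum_le_sum fun i hi => step_le R hC (hkn.trans (mem_Ico.1 hi).1)
    (hmn.trans (mem_Ico.1 hi).1)).trans ?_
  rw [sum_Ico_eq_sum_range]
  have hs : Summable fun i => stepBound C (i + n) :=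
    (summable_nat_add_iff n).2 summable_stepBound
  by_cases hC0 : 0 ≤ C + 4
  · have hb0 : ∀ i, 0 ≤ stepBound C i := fun i => by unfold stepBound; positivity
    rw [← ENNReal.ofReal_sum_of_nonneg fun i _ => hb0 _]
    refine ENNReal.ofReal_le_ofReal ?_
    simp only [add_comm n]
    exact hs.sum_le_tsum _ fun i _ => hb0 _
  · have hb0 : ∀ i, stepBound C i ≤ 0 := fun i =>
      mul_nonpos_of_nonpos_of_nonneg (by push Not at hC0; linarith) (by positivity)
    simp [ENNReal.ofReal_of_nonpos (hb0 _)]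

theorem tendsto_test (k : ℕ) (c : ℤ →₀ ℂ) (hc : (c.sum fun _ z => z) = 0) :
    Tendsto (fun n => ∫ θ in (0 : ℝ)..1, ‖trig c θ‖ ^ 2 * R.riesz k n θ) atTop
      (𝓝 (∫ θ in (0 : ℝ)..1, ‖trig c θ‖ ^ 2 * dens R k θ)) := by
  set B := ∑ a ∈ c.support, ‖c a‖ with hB
  set L := ∑ a ∈ c.support, ‖c a‖ * (2 * Real.pi * |(a : ℝ)|) with hL
  have hbd : ∀ θ, ‖trig c θ‖ ≤ B := fun θ =>
    (norm_sum_le _ _).trans (sum_le_sum fun a _ => by rw [norm_mul, norm_e, mul_one])
  have hz : ∀ (θ : ℝ) (z : ℤ), ‖trig c θ‖ ≤ L * |θ - z| := fun θ z => by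
    have e1 : trig c θ = ∑ a ∈ c.support, c a * (e ((a : ℝ) * (θ - z)) - 1) := by
      simp only [mul_sub, mul_one, sum_sub_distrib]
      rw [show ∑ a ∈ c.support, c a = 0 from hc, sub_zero]
      refine sum_congr rfl fun a _ => ?_
      rw [← mul_sub, ← e_add_int ((a : ℝ) * (θ - z)) (a * z)]
      push_cast
      ring_nf
    rw [e1, hL, sum_mul]
    refine (norm_sum_le _ _).trans (sum_le_sum fun a _ => ?_)
    rw [norm_mul, mul_assoc]
    refine mul_le_mul_of_nonneg_left ((norm_e_sub_one_le _).trans (le_of_eq ?_)) (norm_nonneg _)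
    rw [abs_mul]; ring
  have hL0 : 0 ≤ L := sum_nonneg fun a _ => by positivity
  have cφ : Continuous fun θ => ‖trig c θ‖ ^ 2 := by
    unfold trig Finsupp.sum; fun_prop
  obtain ⟨hdm, hd0, hdi, -⟩ := dens_props R k
  rw [Metric.tendsto_atTop]
  intro ε hε
  obtain ⟨m, hm⟩ := exists_pow_lt_of_lt_one
    (show 0 < min 1 (ε / (4 * (L ^ 2 + 1))) by positivity) (show (1 / 2 : ℝ) < 1 by norm_num)
  set δ := 2 * marg m with hδ
  have hδsmall : (L * δ) ^ 2 * 2 ≤ ε / 2 := by
    have h0 : 0 ≤ δ := by linarith [marg_pos m]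
    have h1 : δ ≤ (1 / 2 : ℝ) ^ m := by
      rw [hδ, marg]; linarith [pow_pos (by norm_num : (0 : ℝ) < 1 / 2) m]
    have h3 : δ ≤ 1 := h1.trans (hm.le.trans (min_le_left _ _))
    have h4 : δ * (4 * (L ^ 2 + 1)) ≤ ε :=
      (le_div_iff₀ (by positivity)).1 (h1.trans (hm.le.trans (min_le_right _ _)))
    nlinarith [mul_le_mul_of_nonneg_left h3 h0, sq_nonneg L]
  have htail := (tendsto_sum_nat_add (stepBound C)).const_mul (B ^ 2)
  rw [mul_zero] at htail
  obtain ⟨n₀, hn₀⟩ := Metric.tendsto_atTop.1 htail (ε / 2) (by positivity)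
  refine ⟨max n₀ (max k m), fun n hn => ?_⟩
  have hkn : k ≤ n := le_trans (le_trans (le_max_left _ _) (le_max_right _ _)) hn
  have hmn : m ≤ n := le_trans (le_trans (le_max_right _ _) (le_max_right _ _)) hn
  have hri : IntegrableOn (R.riesz k n) (Set.Ioc 0 1) := (continuous_riesz R k n).integrableOn_Ioc
  have hφi : ∀ {g : ℝ → ℝ}, IntegrableOn g (Set.Ioc 0 1) →
      IntegrableOn (fun θ => ‖trig c θ‖ ^ 2 * g θ) (Set.Ioc 0 1) := fun hg =>
    Integrable.bdd_mul (c := B ^ 2) hg cφ.aestronglyMeasurable (Eventually.of_forall fun θ => by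
      rw [Real.norm_eq_abs, abs_of_nonneg (sq_nonneg _)]
      exact pow_le_pow_left₀ (norm_nonneg _) (hbd θ) 2)
  rw [Real.dist_eq, intervalIntegral.integral_of_le zero_le_one,
    intervalIntegral.integral_of_le zero_le_one, ← integral_sub (hφi hri) (hφi hdi)]
  refine lt_of_le_of_lt (abs_integral_le_integral_abs) ?_
  set D := fun θ => |R.riesz k n θ - dens R k θ| with hD
  have hDi : IntegrableOn D (Set.Ioc 0 1) := (hri.sub hdi).abs
  have hiin : Integrable ((inner m).indicator D) (volume.restrict (Set.Ioc 0 1)) :=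
    hDi.indicator measurableSet_Ioc
  have hpt : ∀ θ ∈ Set.Ioc (0 : ℝ) 1,
      |‖trig c θ‖ ^ 2 * R.riesz k n θ - ‖trig c θ‖ ^ 2 * dens R k θ| ≤
        B ^ 2 * (inner m).indicator D θ + (L * δ) ^ 2 * (R.riesz k n θ + dens R k θ) := by
    intro θ hθ
    rw [← mul_sub, abs_mul, abs_of_nonneg (sq_nonneg _)]
    have hadd : D θ ≤ R.riesz k n θ + dens R k θ := by
      have := riesz_nonneg R k n θ
      have := hd0 θ
      rw [hD, abs_le]; constructor <;> linarith
    by_cases hin : θ ∈ inner m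
    · rw [Set.indicator_of_mem hin]
      refine le_add_of_le_of_nonneg (mul_le_mul_of_nonneg_right ?_ (abs_nonneg _)) ?_
      · exact pow_le_pow_left₀ (norm_nonneg _) (hbd θ) 2
      · exact mul_nonneg (sq_nonneg _) (add_nonneg (riesz_nonneg R k n θ) (hd0 θ))
    · rw [Set.indicator_of_notMem hin, mul_zero, zero_add]
      refine mul_le_mul (pow_le_pow_left₀ (norm_nonneg _) ?_ 2) hadd (abs_nonneg _) (sq_nonneg _)
      rw [inner, Set.mem_Ioc, not_and_or, not_lt, not_le] at hin
      rcases hin with h | h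
      · exact (hz θ 0).trans (mul_le_mul_of_nonneg_left (by
          rw [Int.cast_zero, sub_zero, abs_of_pos hθ.1]; exact h) hL0)
      · exact (hz θ 1).trans (mul_le_mul_of_nonneg_left (by
          rw [Int.cast_one, abs_le]; constructor <;> linarith [hθ.2]) hL0)
  have hrhs : Integrable (fun θ => B ^ 2 * (inner m).indicator D θ +
      (L * δ) ^ 2 * (R.riesz k n θ + dens R k θ)) (volume.restrict (Set.Ioc 0 1)) :=
    (hiin.const_mul _).add ((hri.add hdi).const_mul _)
  refine lt_of_le_of_lt (integral_mono_ae ((hφi hri).sub (hφi hdi)).abs hrhs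
    ((ae_restrict_mem measurableSet_Ioc).mono hpt)) ?_
  have hsum' : Integrable (fun θ => R.riesz k n θ + dens R k θ)
      (volume.restrict (Set.Ioc 0 1)) := hri.add hdi
  rw [integral_add (hiin.const_mul _) (hsum'.const_mul _), integral_const_mul,
    integral_const_mul, integral_add hri hdi, setIntegral_indicator (measurableSet_inner m),
    Set.inter_eq_right.2 (inner_subset m), ← intervalIntegral.integral_of_le zero_le_one,
    ← intervalIntegral.integral_of_le zero_le_one, integral_riesz R hkn]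
  have hI : ∫ θ in inner m, D θ ≤ max (∑' i, stepBound C (i + n)) 0 := by
    rw [integral_eq_lintegral_of_nonneg_ae (Eventually.of_forall fun θ => abs_nonneg _)
      (hDi.mono_set (inner_subset m)).aestronglyMeasurable]
    exact ENNReal.toReal_le_of_le_ofReal (le_max_right _ _) ((l1_inner R hC hkn hmn).trans
      (ENNReal.ofReal_le_ofReal (le_max_left _ _)))
  have hn₀' : B ^ 2 * max (∑' i, stepBound C (i + n)) 0 < ε / 2 := by
    have h := hn₀ n (le_trans (le_max_left _ _) hn)
    rw [Real.dist_eq, sub_zero, abs_lt] at h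
    rcases le_total (∑' i, stepBound C (i + n)) 0 with h' | h'
    · rw [max_eq_right h', mul_zero]; linarith
    · rw [max_eq_left h']; exact h.2
  have hd1 := (dens_props R k).2.2.2
  have h5 : (L * δ) ^ 2 * (1 + ∫ θ in (0 : ℝ)..1, dens R k θ) ≤ ε / 2 :=
    (mul_le_mul_of_nonneg_left (by linarith) (sq_nonneg _)).trans hδsmall
  have h6 := mul_le_mul_of_nonneg_left hI (sq_nonneg B)
  linarith

end limit

end Spectral

open Spectral in
/-- The analytic half of the spectral analysis. -/
theorem rieszGoal (hF : FlatSpacerGoal) : RieszGoal := by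
  obtain ⟨R, C, hsum, -, hC⟩ := exists_data hF
  refine ⟨R, fun k => dens R k, hsum, dens_props R, fun k => ?_, tendsto_test R hC⟩
  filter_upwards [ae_summable R hC] with θ ⟨hne, hs⟩
  obtain ⟨hk, hk0⟩ := tendsto_riesz R hne hs k
  refine ⟨hk0, tendsto_nhds_unique hk
    (((tendsto_riesz R hne hs (k + 1)).1.const_mul _).congr' ?_)⟩
  filter_upwards [Filter.eventually_gt_atTop k] with n hn
  rw [RankOne.riesz, RankOne.riesz, Finset.prod_eq_prod_Ico_succ_bot hn]

end Vale.Agent.P130.Lebesgue
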