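import Vale.Agent.P130.Lebesgue.Spectral.Trig

/-!
# One stage: flat spacers keep the mass of the previous Riesz product

If the spacer polynomial is flat for every `x` off `δ`, the polynomial of the stage has modulus
near one on `[2δ, 1 - 2δ]` in the mean square weighted by any squared sum of lower degree.
-/

namespace Vale.Agent.P130.Lebesgue.Spectral

open MeasureTheory Finset
open scoped ComplexConjugate Topology

/-- The error of one stage. -/
noncomputable def stageErr (S H : ℕ) (η : ℝ) : ℝ :=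
  50 * (2 * η + 2 * (2 * Real.pi) ^ 2 * (S : ℝ) ^ 3 / (H : ℝ) ^ 2)

theorem flat_stage (F : Finset ℕ) (c : ℕ → ℂ) {h H p S : ℕ} (hH : h ≤ H) (hh : 0 < h)
    (hF : ∀ n ∈ F, n < h) (hc : ∑ n ∈ F, ‖c n‖ ^ 2 = 1) (hp : 0 < p) (s : ℕ → ℕ)
    (hs : ∀ j < p, s j < S) {δ η : ℝ} (hδ : 1 / (H : ℝ) ≤ δ) (hδ4 : δ ≤ 1 / 4) (hη : 0 ≤ η)
    (hflat : ∀ x ∈ Set.Icc δ (1 - δ), ∫ u in (0 : ℝ)..1,
      (‖∑ j ∈ range p, e (s j * x + j * u)‖ / Real.sqrt p - 1) ^ 2 ≤ η) :
    ∫ θ in (2 * δ)..(1 - 2 * δ), ‖∑ n ∈ F, c n * e (n * θ)‖ ^ 2 *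
      (‖∑ j ∈ range p, e (((j * H + s j : ℕ) : ℝ) * θ)‖ / Real.sqrt p - 1) ^ 2 ≤
        stageErr S H η := by
  obtain ⟨B, hB0, hBsum, hB⟩ := exists_cell_bound F c hH hh hF hc
  set g : ℝ → ℝ := fun θ => ‖∑ n ∈ F, c n * e (n * θ)‖ ^ 2 *
      (‖∑ j ∈ range p, e (((j * H + s j : ℕ) : ℝ) * θ)‖ / Real.sqrt p - 1) ^ 2 with hg
  have cg : Continuous g := by fun_prop
  have g0 : ∀ θ, 0 ≤ g θ := fun θ => by positivity
  have hHR : (0 : ℝ) < H := by exact_mod_cast hh.trans_le hH
  have hpR : (0 : ℝ) < p := by exact_mod_cast hp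
  set i₀ := ⌈δ * H⌉₊ with hi₀
  set i₁ := ⌊(1 - δ) * H⌋₊ with hi₁
  have hd1 : 1 ≤ δ * H := by rwa [div_le_iff₀ hHR] at hδ
  have a0 : (i₀ : ℝ) ≤ 2 * δ * H := by
    have := Nat.ceil_lt_add_one (show 0 ≤ δ * H by linarith)
    linarith
  have a1 : (1 - 2 * δ) * H ≤ i₁ := by
    have := Nat.lt_floor_add_one ((1 - δ) * H)
    linarith
  have a01 : i₀ ≤ i₁ := by
    have : (i₀ : ℝ) ≤ i₁ := by nlinarith
    exact_mod_cast this
  have h1 : ∫ θ in (2 * δ)..(1 - 2 * δ), g θ ≤
      ∫ θ in ((i₀ : ℝ) / H)..((i₁ : ℝ) / H), g θ := by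
    refine intervalIntegral.integral_mono_interval ?_ (by linarith) ?_
      (Filter.Eventually.of_forall g0) (cg.intervalIntegrable _ _)
    · rw [div_le_iff₀ hHR]; exact a0
    · rw [le_div_iff₀ hHR]; exact a1
  set E : ℝ := 2 * η + 2 * (2 * Real.pi) ^ 2 * (S : ℝ) ^ 3 / (H : ℝ) ^ 2 with hE
  have hE0 : 0 ≤ E := by positivity
  have hcell : ∀ i ∈ Ico i₀ i₁,
      ∫ θ in ((i : ℝ) / H)..(((i + 1 : ℕ) : ℝ) / H), g θ ≤ (H : ℝ)⁻¹ * (B i * E) := by
    intro i hi
    rw [mem_Ico] at hi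
    have hi0 : δ * H ≤ i := (Nat.le_ceil _).trans (by exact_mod_cast hi.1)
    have hi1 : (i : ℝ) + 1 ≤ (1 - δ) * H := by
      have hnn : (0 : ℝ) ≤ (1 - δ) * H := by nlinarith
      calc (i : ℝ) + 1 = ((i + 1 : ℕ) : ℝ) := by push_cast; ring
        _ ≤ (i₁ : ℝ) := by exact_mod_cast hi.2
        _ ≤ _ := Nat.floor_le hnn
    have hiH : i < H := by
      have : (i : ℝ) < H := by nlinarith
      exact_mod_cast this
    set x := (i : ℝ) / H with hx
    have hxI : x ∈ Set.Icc δ (1 - δ) := by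
      constructor
      · rw [hx, le_div_iff₀ hHR]; exact hi0
      · rw [hx, div_le_iff₀ hHR]; linarith
    have hsub : ∫ θ in x..(((i + 1 : ℕ) : ℝ) / H), g θ =
        (H : ℝ)⁻¹ * ∫ u in (0 : ℝ)..1, g (x + (H : ℝ)⁻¹ * u) := by
      rw [← smul_eq_mul, intervalIntegral.smul_integral_comp_add_mul, mul_zero, add_zero, mul_one,
        hx]
      congr 1
      push_cast
      ring
    rw [hsub]
    refine mul_le_mul_of_nonneg_left ?_ (by positivity)
    set G : ℕ → ℝ → ℂ := fun v u =>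
      ∑ j ∈ (range p).filter (fun j => s j = v), e (s j * x) * e (((j : ℤ) : ℝ) * u) with hG
    set A : ℝ → ℂ := fun u => ∑ j ∈ range p, e (s j * x + j * u) with hA
    have cA : Continuous A := by fun_prop
    have cG : ∀ v, Continuous (G v) := fun v => by fun_prop
    have hpt : ∀ u ∈ Set.Icc (0 : ℝ) 1, g (x + (H : ℝ)⁻¹ * u) ≤
        B i * (2 * (‖A u‖ / Real.sqrt p - 1) ^ 2 +
          2 * ((S : ℝ) * (2 * Real.pi * S / H) ^ 2 / p) * ∑ v ∈ range S, ‖G v u‖ ^ 2) := by
      intro u hu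
      have hcellmem : x + (H : ℝ)⁻¹ * u ∈ Set.Icc ((i : ℝ) / H) ((i + 1 : ℝ) / H) := by
        rw [hx, add_div, one_div]
        constructor <;> nlinarith [inv_pos.2 hHR, hu.1, hu.2]
      refine mul_le_mul (hB i hiH _ hcellmem) ?_ (by positivity) (hB0 i)
      set Δ : ℂ := ∑ v ∈ range S, (e (v * (u / H)) - 1) * G v u with hΔ
      have hsum : ∑ j ∈ range p, e (((j * H + s j : ℕ) : ℝ) * (x + (H : ℝ)⁻¹ * u)) = A u + Δ := by
        rw [hΔ, hA, hG]
        simp only [mul_sum]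
        rw [show (∑ v ∈ range S, ∑ j ∈ (range p).filter (fun j => s j = v),
            (e (v * (u / H)) - 1) * (e (s j * x) * e (((j : ℤ) : ℝ) * u))) =
          ∑ v ∈ range S, ∑ j ∈ (range p).filter (fun j => s j = v),
            (e (s j * (u / H)) - 1) * (e (s j * x) * e (((j : ℤ) : ℝ) * u)) from
          sum_congr rfl fun v _ => sum_congr rfl fun j hj => by rw [(mem_filter.1 hj).2],
          sum_fiberwise_of_maps_to fun j hj => mem_range.2 (hs j (mem_range.1 hj)),
          ← sum_add_distrib]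
        refine sum_congr rfl fun j _ => ?_
        rw [show ((j * H + s j : ℕ) : ℝ) * (x + (H : ℝ)⁻¹ * u) =
          (((j * i : ℕ) : ℤ) : ℝ) + ((s j * x + j * u) + s j * (u / H)) by
            rw [hx]; push_cast; field_simp; ring,
          e_add, e_int, one_mul, e_add (s j * x + j * u), e_add (s j * x)]
        push_cast
        ring
      rw [hsum]
      have hΔb : ‖Δ‖ ^ 2 ≤ (S : ℝ) * (2 * Real.pi * S / H) ^ 2 * ∑ v ∈ range S, ‖G v u‖ ^ 2 := by
        have hb : ‖Δ‖ ≤ ∑ v ∈ range S, (2 * Real.pi * S / H) * ‖G v u‖ := by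
          refine (norm_sum_le _ _).trans (sum_le_sum fun v hv => ?_)
          rw [norm_mul]
          refine mul_le_mul_of_nonneg_right ((norm_e_sub_one_le _).trans ?_) (norm_nonneg _)
          have hv' : (v : ℝ) ≤ S := by exact_mod_cast (mem_range.1 hv).le
          rw [abs_of_nonneg (by have := hu.1; positivity), mul_div_assoc]
          refine mul_le_mul_of_nonneg_left ?_ (by positivity)
          rw [← mul_div_assoc]
          gcongr
          nlinarith [hu.1, hu.2, Nat.cast_nonneg (α := ℝ) v]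
        refine (pow_le_pow_left₀ (norm_nonneg _) hb 2).trans ?_
        refine (sum_mul_sq_le_sq_mul_sq (range S) _ _).trans (le_of_eq ?_)
        rw [sum_const, card_range, nsmul_eq_mul]
      have hsq : (Real.sqrt p) ^ 2 = p := Real.sq_sqrt hpR.le
      have hsp : 0 < Real.sqrt p := Real.sqrt_pos.2 hpR
      have htri : |‖A u + Δ‖ / Real.sqrt p - 1| ≤
          |‖A u‖ / Real.sqrt p - 1| + ‖Δ‖ / Real.sqrt p := by
        have e1 : |‖A u + Δ‖ - ‖A u‖| ≤ ‖Δ‖ :=
          (abs_norm_sub_norm_le _ _).trans (by rw [add_sub_cancel_left])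
        have e2 : ‖A u + Δ‖ / Real.sqrt p - 1 =
            (‖A u‖ / Real.sqrt p - 1) + (‖A u + Δ‖ - ‖A u‖) / Real.sqrt p := by ring
        rw [e2]
        refine (abs_add_le _ _).trans ?_
        rw [abs_div, abs_of_pos hsp]
        gcongr
      calc (‖A u + Δ‖ / Real.sqrt p - 1) ^ 2
          ≤ (|‖A u‖ / Real.sqrt p - 1| + ‖Δ‖ / Real.sqrt p) ^ 2 := by
            rw [← sq_abs]; exact pow_le_pow_left₀ (abs_nonneg _) htri 2
        _ ≤ 2 * (|‖A u‖ / Real.sqrt p - 1| ^ 2 + (‖Δ‖ / Real.sqrt p) ^ 2) := add_sq_le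
        _ ≤ _ := by
            rw [sq_abs, div_pow ‖Δ‖, hsq, mul_add]
            refine add_le_add le_rfl ?_
            rw [mul_assoc 2, ← mul_div_right_comm]
            gcongr
    refine (intervalIntegral.integral_mono_on zero_le_one (Continuous.intervalIntegrable (by fun_prop) _ _)
      (Continuous.intervalIntegrable (by fun_prop) _ _) hpt).trans ?_
    rw [intervalIntegral.integral_const_mul, intervalIntegral.integral_add
      (Continuous.intervalIntegrable (by fun_prop) _ _)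
      (Continuous.intervalIntegrable (by fun_prop) _ _), intervalIntegral.integral_const_mul,
      intervalIntegral.integral_const_mul, intervalIntegral.integral_finsetSum
        fun v _ => Continuous.intervalIntegrable (by fun_prop) _ _]
    have hGint : ∀ v, ∫ u in (0 : ℝ)..1, ‖G v u‖ ^ 2 =
        ((range p).filter fun j => s j = v).card := fun v => by
      rw [hG, integral_normSq_sum _ _ _ Nat.cast_injective.injOn]
      simp
    have hGp : ∑ v ∈ range S, ∫ u in (0 : ℝ)..1, ‖G v u‖ ^ 2 = p := by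
      simp only [hGint]
      rw [← Nat.cast_sum, ← card_eq_sum_card_fiberwise fun j hj => ?_, card_range]
      exact mem_range.2 (hs j (mem_range.1 hj))
    rw [hGp]
    refine mul_le_mul_of_nonneg_left ?_ (hB0 i)
    rw [hE]
    refine add_le_add ?_ (le_of_eq ?_)
    · exact mul_le_mul_of_nonneg_left (hflat x hxI) (by norm_num)
    · field_simp
  refine h1.trans ?_
  rw [← intervalIntegral.sum_integral_adjacent_intervals_Ico (a := fun i : ℕ => (i : ℝ) / H) a01
    fun i _ => cg.intervalIntegrable _ _]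
  refine (sum_le_sum hcell).trans ?_
  rw [← mul_sum, ← sum_mul, stageErr, ← hE]
  have hsub : ∑ i ∈ Ico i₀ i₁, B i ≤ ∑ i ∈ range H, B i := by
    refine sum_le_sum_of_subset_of_nonneg (fun i hi => mem_range.2 ?_) fun i _ _ => hB0 i
    have h2 : (i₁ : ℝ) ≤ H := (Nat.floor_le (by nlinarith)).trans (by nlinarith)
    exact lt_of_lt_of_le (mem_Ico.1 hi).2 (by exact_mod_cast h2)
  calc (H : ℝ)⁻¹ * ((∑ i ∈ Ico i₀ i₁, B i) * E) ≤ (H : ℝ)⁻¹ * (50 * H * E) := by
        gcongr
        exact hsub.trans hBsum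
    _ = 50 * E := by field_simp

end Vale.Agent.P130.Lebesgue.Spectral
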