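import Vale.Agent.P130.Lebesgue.Spectral.Defs

/-!
# Elementary facts on finite exponential sums

Orthogonality, Parseval, and the bound on the sum over cells of the maximum of a squared sum.
-/

namespace Vale.Agent.P130.Lebesgue.Spectral

open MeasureTheory Finset
open scoped ComplexConjugate Topology RealInnerProductSpace

@[simp] theorem e_zero : e 0 = 1 := by simp [e]

theorem e_add (x y : ℝ) : e (x + y) = e x * e y := by
  rw [e, e, e, ← Complex.exp_add]
  congr 1
  push_cast
  ring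

@[simp] theorem norm_e (x : ℝ) : ‖e x‖ = 1 := by rw [e]; exact Complex.norm_exp_ofReal_mul_I _

theorem conj_e (x : ℝ) : conj (e x) = e (-x) := by
  rw [e, e, ← Complex.exp_conj]
  congr 1
  simp [Complex.conj_ofReal, map_ofNat]

@[simp] theorem e_int (n : ℤ) : e n = 1 := by
  rw [e]
  convert Complex.exp_int_mul_two_pi_mul_I n using 2
  push_cast
  ring

@[simp] theorem e_nat (n : ℕ) : e n = 1 := by exact_mod_cast e_int n

theorem e_add_int (x : ℝ) (n : ℤ) : e (x + n) = e x := by rw [e_add, e_int, mul_one]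

theorem norm_e_sub_one_le (x : ℝ) : ‖e x - 1‖ ≤ 2 * Real.pi * |x| := by
  rw [e, mul_comm _ Complex.I]
  refine Real.norm_exp_I_mul_ofReal_sub_one_le.trans (le_of_eq ?_)
  rw [Real.norm_eq_abs, abs_mul, abs_of_pos (by positivity : (0 : ℝ) < 2 * Real.pi)]

@[fun_prop] theorem continuous_e : Continuous e := by unfold e; fun_prop

theorem hasDerivAt_e_mul (a θ : ℝ) :
    HasDerivAt (fun t : ℝ => e (a * t))
      (((2 * Real.pi * a : ℝ) : ℂ) * Complex.I * e (a * θ)) θ := by
  have h1 : HasDerivAt (fun t : ℝ => ((2 * Real.pi * a * t : ℝ) : ℂ))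
      ((2 * Real.pi * a : ℝ) : ℂ) θ := by
    simpa using ((hasDerivAt_id θ).const_mul (2 * Real.pi * a)).ofReal_comp
  have h2 := (h1.mul_const Complex.I).cexp
  have e1 : (fun t : ℝ => e (a * t)) =
      fun t : ℝ => Complex.exp (((2 * Real.pi * a * t : ℝ) : ℂ) * Complex.I) := by
    funext t; rw [e, ← mul_assoc]
  rw [e1]
  refine h2.congr_deriv ?_
  rw [e, mul_assoc (2 * Real.pi) a θ]
  ring

theorem integral_e (n : ℤ) : ∫ θ in (0 : ℝ)..1, e (n * θ) = if n = 0 then 1 else 0 := by
  rcases eq_or_ne n 0 with rfl | hn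
  · simp
  rw [if_neg hn]
  set d : ℂ := ((2 * Real.pi * n : ℝ) : ℂ) * Complex.I with hd
  have hd0 : d ≠ 0 := by simp [hd, hn, Real.pi_ne_zero]
  have := intervalIntegral.integral_eq_sub_of_hasDerivAt (a := (0 : ℝ)) (b := 1)
    (fun θ _ => hasDerivAt_e_mul (n : ℝ) θ) (Continuous.intervalIntegrable (by fun_prop) _ _)
  rw [intervalIntegral.integral_const_mul, mul_one, e_int, mul_zero, e_zero, sub_self] at this
  exact (mul_eq_zero.1 this).resolve_left hd0

/-- Parseval for a sum of distinct frequencies. -/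
theorem integral_normSq_sum {ι : Type*} (s : Finset ι) (c : ι → ℂ) (n : ι → ℤ)
    (hn : Set.InjOn n s) :
    ∫ θ in (0 : ℝ)..1, ‖∑ i ∈ s, c i * e (n i * θ)‖ ^ 2 = ∑ i ∈ s, ‖c i‖ ^ 2 := by
  have key : ∀ θ : ℝ, ((‖∑ i ∈ s, c i * e (n i * θ)‖ ^ 2 : ℝ) : ℂ) =
      ∑ i ∈ s, ∑ j ∈ s, conj (c i) * c j * e (((n j - n i : ℤ) : ℝ) * θ) := by
    intro θ
    push_cast
    rw [← Complex.conj_mul', map_sum, sum_mul_sum]
    refine sum_congr rfl fun i _ => sum_congr rfl fun j _ => ?_
    rw [map_mul, conj_e, sub_mul, sub_eq_neg_add, e_add]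
    ring
  apply Complex.ofReal_injective
  rw [← intervalIntegral.integral_ofReal]
  simp only [key]
  rw [intervalIntegral.integral_finsetSum
    fun i _ => Continuous.intervalIntegrable (by fun_prop) _ _, Complex.ofReal_sum]
  refine sum_congr rfl fun i hi => ?_
  rw [intervalIntegral.integral_finsetSum
    fun j _ => Continuous.intervalIntegrable (by fun_prop) _ _, sum_eq_single_of_mem i hi]
  · rw [intervalIntegral.integral_const_mul, integral_e, if_pos (sub_self _), mul_one,
      Complex.conj_mul']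
    push_cast
    ring
  · intro j hj hne
    rw [intervalIntegral.integral_const_mul, integral_e,
      if_neg (sub_ne_zero.2 fun h => hne (hn hj hi h)), mul_zero]

/-- On every cell of the grid of step `1/H`, a squared sum of mass one of frequencies below
`h ≤ H` is bounded by numbers of total `50 H`. -/
theorem exists_cell_bound (F : Finset ℕ) (c : ℕ → ℂ) {h H : ℕ} (hH : h ≤ H) (hh : 0 < h)
    (hF : ∀ n ∈ F, n < h) (hc : ∑ n ∈ F, ‖c n‖ ^ 2 = 1) :
    ∃ B : ℕ → ℝ, (∀ i, 0 ≤ B i) ∧ ∑ i ∈ range H, B i ≤ 50 * H ∧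
      ∀ i < H, ∀ x ∈ Set.Icc ((i : ℝ) / H) ((i + 1 : ℝ) / H),
        ‖∑ n ∈ F, c n * e (n * x)‖ ^ 2 ≤ B i := by
  set D : ℝ → ℂ := fun x => ∑ n ∈ F, c n * e (n * x) with hD
  set D' : ℝ → ℂ := fun x =>
    ∑ n ∈ F, c n * (((2 * Real.pi * n : ℝ) : ℂ) * Complex.I) * e (n * x) with hD'
  have hd : ∀ x, HasDerivAt D (D' x) x := fun x => by
    refine (HasDerivAt.fun_sum fun (n : ℕ) _ =>
      (hasDerivAt_e_mul (n : ℝ) x).const_mul (c n)).congr_deriv ?_
    exact sum_congr rfl fun n _ => by ring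
  have cD : Continuous D := by fun_prop
  have cD' : Continuous D' := by fun_prop
  set W : ℝ → ℝ := fun x => (H + h) * ‖D x‖ ^ 2 + ‖D' x‖ ^ 2 / h with hW
  have cW : Continuous W := by fun_prop
  set I : ℕ → ℝ := fun i => ∫ x in ((i : ℕ) : ℝ) / H..((i + 1 : ℕ) : ℝ) / H, W x with hI
  have hHR : (0 : ℝ) < H := by exact_mod_cast hh.trans_le hH
  have hhR : (0 : ℝ) < h := by exact_mod_cast hh
  have hle : ∀ i : ℕ, ((i : ℕ) : ℝ) / H ≤ ((i + 1 : ℕ) : ℝ) / H := fun i => by
    gcongr; simp
  have hW0 : ∀ x, 0 ≤ W x := fun x => by positivity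
  refine ⟨I, fun i => intervalIntegral.integral_nonneg (hle i) fun x _ => hW0 x, ?_, ?_⟩
  · rw [intervalIntegral.sum_integral_adjacent_intervals (a := fun i : ℕ => (i : ℝ) / H)
      fun i _ => cW.intervalIntegrable _ _, Nat.cast_zero, zero_div, div_self hHR.ne']
    rw [intervalIntegral.integral_add (Continuous.intervalIntegrable (by fun_prop) _ _)
      (Continuous.intervalIntegrable (by fun_prop) _ _), intervalIntegral.integral_const_mul,
      intervalIntegral.integral_div]
    have p1 : ∫ x in (0 : ℝ)..1, ‖D x‖ ^ 2 = 1 := by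
      have := integral_normSq_sum F c (fun n => (n : ℤ)) Nat.cast_injective.injOn
      simp only [Int.cast_natCast] at this
      exact this.trans hc
    have p2 : ∫ x in (0 : ℝ)..1, ‖D' x‖ ^ 2 ≤ (2 * Real.pi * h) ^ 2 := by
      have := integral_normSq_sum F (fun n => c n * (((2 * Real.pi * n : ℝ) : ℂ) * Complex.I))
        (fun n => (n : ℤ)) Nat.cast_injective.injOn
      simp only [Int.cast_natCast] at this
      rw [hD', this]
      calc ∑ n ∈ F, ‖c n * (((2 * Real.pi * n : ℝ) : ℂ) * Complex.I)‖ ^ 2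
          ≤ ∑ n ∈ F, ‖c n‖ ^ 2 * (2 * Real.pi * h) ^ 2 := by
            refine sum_le_sum fun n hn => ?_
            rw [norm_mul, norm_mul, Complex.norm_I, mul_one, Complex.norm_real, mul_pow,
              Real.norm_eq_abs, sq_abs]
            gcongr
            exact (hF n hn).le
        _ = (2 * Real.pi * h) ^ 2 := by rw [← sum_mul, hc, one_mul]
    have e1 : (∫ x in (0 : ℝ)..1, ‖D' x‖ ^ 2) / h ≤ 4 * Real.pi ^ 2 * h := by
      rw [div_le_iff₀ hhR]
      exact p2.trans (le_of_eq (by ring))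
    rw [p1, mul_one]
    have hpi : Real.pi ^ 2 ≤ 12 := by nlinarith [Real.pi_lt_d2, Real.pi_pos]
    have : (h : ℝ) ≤ H := by exact_mod_cast hH
    nlinarith [mul_le_mul_of_nonneg_right hpi hhR.le]
  · intro i _ x hx
    have hQ : ∀ y, HasDerivAt (fun t => ‖D t‖ ^ 2) (2 * ⟪D y, D' y⟫) y := fun y => (hd y).norm_sq
    have habs : ∀ y, |2 * ⟪D y, D' y⟫| ≤ h * ‖D y‖ ^ 2 + ‖D' y‖ ^ 2 / h := fun y => by
      have h1 := abs_real_inner_le_norm (D y) (D' y)
      rw [abs_mul, abs_two, ← sub_nonneg]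
      have h2 : h * ‖D y‖ ^ 2 + ‖D' y‖ ^ 2 / h - 2 * (‖D y‖ * ‖D' y‖) =
          (h * ‖D y‖ - ‖D' y‖) ^ 2 / h := by field_simp; ring
      have : 0 ≤ (h * ‖D y‖ - ‖D' y‖) ^ 2 / h := by positivity
      linarith
    set a := ((i : ℕ) : ℝ) / H with ha
    set b := ((i + 1 : ℕ) : ℝ) / H with hb
    have hxb : x ≤ b := by simpa [hb] using hx.2
    have hstep : ∀ y ∈ Set.Icc a b,
        ‖D x‖ ^ 2 ≤ ‖D y‖ ^ 2 + ∫ t in a..b, (h * ‖D t‖ ^ 2 + ‖D' t‖ ^ 2 / h) := by
      intro y hy
      have cQ : Continuous fun t => 2 * ⟪D t, D' t⟫ := (cD.inner cD').const_mul 2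
      have hftc := intervalIntegral.integral_eq_sub_of_hasDerivAt (a := y) (b := x)
        (fun t _ => hQ t) (cQ.intervalIntegrable _ _)
      have cR : Continuous fun t => h * ‖D t‖ ^ 2 + ‖D' t‖ ^ 2 / h := by fun_prop
      have h0 : ∀ t, 0 ≤ h * ‖D t‖ ^ 2 + ‖D' t‖ ^ 2 / h := fun t => by positivity
      have h3 : |∫ t in y..x, 2 * ⟪D t, D' t⟫| ≤
          ∫ t in a..b, (h * ‖D t‖ ^ 2 + ‖D' t‖ ^ 2 / h) := by
        rw [← Real.norm_eq_abs]
        refine (intervalIntegral.norm_integral_le_abs_of_norm_le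
          (g := fun t => h * ‖D t‖ ^ 2 + ‖D' t‖ ^ 2 / h) ?_ (cR.intervalIntegrable _ _)).trans ?_
        · exact Filter.Eventually.of_forall fun t => by rw [Real.norm_eq_abs]; exact habs t
        rcases le_total y x with hyx | hxy
        · rw [abs_of_nonneg (intervalIntegral.integral_nonneg hyx fun t _ => h0 t)]
          exact intervalIntegral.integral_mono_interval hy.1 hyx hxb
            (Filter.Eventually.of_forall h0) (cR.intervalIntegrable _ _)
        · rw [intervalIntegral.integral_symm, abs_neg,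
            abs_of_nonneg (intervalIntegral.integral_nonneg hxy fun t _ => h0 t)]
          exact intervalIntegral.integral_mono_interval hx.1 hxy hy.2
            (Filter.Eventually.of_forall h0) (cR.intervalIntegrable _ _)
      have := (le_abs_self _).trans h3
      linarith
    have hab : b - a = 1 / (H : ℝ) := by rw [ha, hb]; push_cast; ring
    have hmono := intervalIntegral.integral_mono_on (μ := volume) (hle i)
      (intervalIntegrable_const (c := ‖D x‖ ^ 2))
      (Continuous.intervalIntegrable (by fun_prop) a b) fun y hy => hstep y hy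
    rw [intervalIntegral.integral_const, intervalIntegral.integral_add
      (Continuous.intervalIntegrable (by fun_prop) _ _) intervalIntegrable_const,
      intervalIntegral.integral_const, smul_eq_mul, smul_eq_mul, hab] at hmono
    show ‖D x‖ ^ 2 ≤ _
    have hsplit : I i = H * (∫ y in a..b, ‖D y‖ ^ 2) +
        ∫ t in a..b, (h * ‖D t‖ ^ 2 + ‖D' t‖ ^ 2 / h) := by
      rw [← intervalIntegral.integral_const_mul, ← intervalIntegral.integral_add
        (Continuous.intervalIntegrable (by fun_prop) _ _)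
        (Continuous.intervalIntegrable (by fun_prop) _ _)]
      exact intervalIntegral.integral_congr fun t _ => by simp only [hW]; ring
    rw [hsplit]
    have := mul_le_mul_of_nonneg_left hmono hHR.le
    rw [mul_add, ← mul_assoc, ← mul_assoc, mul_one_div_cancel hHR.ne', one_mul, one_mul] at this
    exact this

end Vale.Agent.P130.Lebesgue.Spectral
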